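import Vale.Agent.P298.H714.Low

/-!
P298, row E1-LOW (helper714): the lower bound for the colength of the ideals `I_N` of a surface
germ `f = 0`, for a pair `e, e'` with `e, e' ∈ I_k` for all `k < m` and
`|jac (f, e, e')| ≤ C max (|e|, |e'|) ^ (2 + 1 / m)`.
-/

namespace Vale.Agent.P298.H714

open Filter Topology Metric Set MeasureTheory Vale.Agent.P298 Module
open Vale.Agent.P298.H967 (IK mem_IK inI_mem_IK nul_le_IK self_mem_IK inI_pow inI_mono)
open Vale.Agent.P298.H379 (InI Nloc nu pt)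
open scoped ENNReal NNReal

variable {d : ℕ} {f e e' : (Fin 3 → ℂ) → ℂ}

/-- **(L1)** `d N² / (2 m²) - C N ≤ dim O / I_N`. -/
theorem e1low (hf : Hol f) (he : Hol e) (he' : Hol e') (f0 : f 0 = 0) (e0 : e 0 = 0)
    (e0' : e' 0 = 0) {μ : ℕ} (hμ : Milnor f μ) (hz : ∃ᶠ z in 𝓝 (0 : ℂ), f ![0, 0, z] ≠ 0)
    (hd : Colength ![f, e, e'] d) {m : ℝ} (hm : 0 < m)
    (hI : ∀ k : ℝ, 0 < k → k < m → InI f k e) (hI' : ∀ k : ℝ, 0 < k → k < m → InI f k e')
    (hJ : ∃ C : ℝ, ∀ᶠ x in 𝓝 (0 : Fin 3 → ℂ), f x = 0 →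
      ‖jac3 f e e' x‖ ≤ C * (max ‖e x‖ ‖e' x‖) ^ (2 + 1 / m)) :
    ∃ C : ℝ, ∀ N : ℝ, 1 ≤ N →
      (d : ℝ) * N ^ 2 / (2 * m ^ 2) - C * N ≤ finrank ℂ (AnFun 3 ⧸ IK f N) := by
  obtain ⟨C₀, hC₀⟩ := hJ
  obtain ⟨b, r, K, η, S, hJr, M, hpd⟩ := exists_set3 hf he he' f0 e0 e0' hμ hd hC₀ (hol_pd' hf 2)
  have hr := S.D.S.hr
  obtain ⟨T, HT⟩ := S.exists_tr
  obtain ⟨a, ha⟩ := exists_ord (HT.D_an 0 (mem_ball_self S.D.hη)) (HT.not_ev_zero S)
  obtain ⟨m₂, M₂⟩ := S.exists_mt hpd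
  obtain ⟨a₂, ha₂⟩ := exists_ord (M₂.det_an 0 (mem_ball_self S.D.hη)) (S.pd_ne hz M₂)
  refine ⟨d * a / m, fun N hN => ?_⟩
  have hN0 : 0 < N := by linarith
  have hfin : Module.Finite ℂ (AnFun 3 ⧸ IK f N) :=
    finite_IK hf he he' hd (k := m / 2) (by positivity) (hI _ (by positivity) (by linarith))
      (hI' _ (by positivity) (by linarith)) hN0
  -- the number of monomials
  set n : ℕ := ⌊N / m⌋₊ + 1 - a with hn
  -- germs
  have hb : ∀ l, Hol (b l) := S.B.hb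
  let E : AnFun 3 := ⟨e, he⟩
  let E' : AnFun 3 := ⟨e', he'⟩
  let Bb : Fin d → AnFun 3 := fun l => ⟨b l, hb l⟩
  let G : Fin d × Mn n → AnFun 3 := fun p =>
    E ^ (p.2.2 : ℕ) * E' ^ ((p.2.1 : ℕ) - (p.2.2 : ℕ)) * Bb p.1
  let Φ : (Fin d × Mn n → ℂ) →ₗ[ℂ] (AnFun 3 ⧸ IK f N) :=
    Fintype.linearCombination ℂ (fun p => Ideal.Quotient.mk (IK f N) (G p))
  have hΦ : Function.Injective Φ := by
    rw [← LinearMap.ker_eq_bot, LinearMap.ker_eq_bot']
    intro c hc
    -- the corresponding function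
    set u : Fin d → (Fin 2 → ℂ) → ℂ := fun l v =>
      MvPolynomial.eval v (pol fun i : Mn n => c (l, i)) with hu
    have hmem : (∑ p, c p • G p) ∈ IK f N := by
      rw [← Ideal.Quotient.eq_zero_iff_mem, ← hc]
      change _ = Fintype.linearCombination ℂ (fun p => Ideal.Quotient.mk (IK f N) (G p)) c
      rw [Fintype.linearCombination_apply, map_sum]
      rfl
    rw [mem_IK H373.areaI hf hN0] at hmem
    have hfun : ((∑ p, c p • G p : AnFun 3) : (Fin 3 → ℂ) → ℂ) =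
        fun x => ∑ l, u l ![e x, e' x] * b l x := by
      funext x
      rw [AddSubmonoidClass.coe_finsetSum, Finset.sum_apply, Fintype.sum_prod_type]
      refine Finset.sum_congr rfl fun l _ => ?_
      rw [hu]
      simp only
      rw [eval_pol, Finset.sum_mul]
      refine Finset.sum_congr rfl fun i _ => ?_
      change c (l, i) * (e x ^ (i.2 : ℕ) * e' x ^ ((i.1 : ℕ) - (i.2 : ℕ)) * b l x) =
        c (l, i) * (e x ^ (i.2 : ℕ) * e' x ^ ((i.1 : ℕ) - (i.2 : ℕ))) * b l x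
      ring
    rw [hfun] at hmem
    have hcont : ContinuousOn (fun x => ∑ k, u k ![e x, e' x] * b k x)
        (ball (0 : Fin 3 → ℂ) r) := by
      have hec := S.he.1.continuousOn
      have hec' := S.he'.1.continuousOn
      refine continuousOn_finsetSum _ fun k _ => ?_
      refine ContinuousOn.mul ?_ (S.D.S.bb k).1.continuousOn
      have h1 : (fun x => u k ![e x, e' x]) = fun x => ∑ i : Mn n, c (k, i) *
          (e x ^ (i.2 : ℕ) * e' x ^ ((i.1 : ℕ) - (i.2 : ℕ))) := by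
        funext x
        rw [hu]
        simp only
        rw [eval_pol]
        rfl
      rw [h1]
      refine continuousOn_finsetSum _ fun i _ => ?_
      exact continuousOn_const.mul ((hec.pow _).mul (hec'.pow _))
    -- all the polynomials are zero
    have hzero : ∀ l, pol (fun i : Mn n => c (l, i)) = 0 := by
      intro l
      by_contra hne
      obtain ⟨ν, hν, hord⟩ := exists_ord_poly hne (N := n) fun x hx => degree_lt_of_mem _ hx
      have h1 := ord_gt S HT ha M₂ ha₂ hm hJr hN0 (u := u) (l := l) hord hcont hmem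
      have h2 : (⌊N / m⌋₊ : ℝ) ≤ N / m := Nat.floor_le (by positivity)
      have h3 : a + ν ≤ ⌊N / m⌋₊ := by omega
      have h4 : ((a + ν : ℕ) : ℝ) ≤ (⌊N / m⌋₊ : ℝ) := by exact_mod_cast h3
      push_cast at h4
      linarith
    funext p
    rw [← Prod.mk.eta (p := p), ← coeff_pol (fun i : Mn n => c (p.1, i)) p.2, hzero,
      MvPolynomial.coeff_zero]
    rfl
  have hcard := LinearMap.finrank_le_finrank_of_injective hΦ
  rw [Module.finrank_fintype_fun_eq_card, Fintype.card_prod, Fintype.card_fin] at hcard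
  have hcard' : (d : ℝ) * (Fintype.card (Mn n) : ℝ) ≤ finrank ℂ (AnFun 3 ⧸ IK f N) := by
    exact_mod_cast hcard
  refine le_trans ?_ hcard'
  have hd0 : (0 : ℝ) ≤ d := Nat.cast_nonneg d
  refine le_trans ?_ (mul_le_mul_of_nonneg_left (card_Mn n) hd0)
  have hx0 : 0 ≤ N / m := by positivity
  have ha0 : (0 : ℝ) ≤ a := Nat.cast_nonneg a
  have e1 : (d : ℝ) * N ^ 2 / (2 * m ^ 2) - d * a / m * N =
      d * ((N / m) ^ 2 / 2 - a * (N / m)) := by
    field_simp
  rw [e1]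
  refine mul_le_mul_of_nonneg_left ?_ hd0
  by_cases hcase : (a : ℝ) ≤ N / m
  · have h1 : N / m - a ≤ (n : ℝ) := by
      have h2 : N / m < (⌊N / m⌋₊ : ℝ) + 1 := Nat.lt_floor_add_one _
      have h3 : (⌊N / m⌋₊ : ℝ) + 1 ≤ n + a := by
        have : ⌊N / m⌋₊ + 1 ≤ n + a := by omega
        exact_mod_cast this
      linarith
    have h2 : (N / m - a) ^ 2 ≤ (n : ℝ) ^ 2 := pow_le_pow_left₀ (by linarith) h1 2
    nlinarith
  · push Not at hcase
    have h1 : (N / m) ^ 2 / 2 - a * (N / m) ≤ 0 := by nlinarith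
    have h2 : (0 : ℝ) ≤ (n : ℝ) ^ 2 / 2 := by positivity
    linarith

end Vale.Agent.P298.H714
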