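import Vale.Agent.P298.H714.Vert
import Vale.Agent.P298.H714.Int4

/-!
P298, row E1-LOW (helper714), part 14: the fibres of (e, e') on the surface `f = 0`.
-/

namespace Vale.Agent.P298.H714

open Filter Topology Metric Set MeasureTheory Vale.Agent.P298

variable {d : ℕ}

/-- analytic functions on a ball, up to equality on the ball -/
def An2 (δ : ℝ) : Subring (ball (0 : Fin 2 → ℂ) δ → ℂ) where
  carrier := {u | ∃ U : (Fin 2 → ℂ) → ℂ, AnalyticOnNhd ℂ U (ball 0 δ) ∧ ∀ x, u x = U x}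
  mul_mem' := by
    rintro a b ⟨A, hA, hA'⟩ ⟨B, hB, hB'⟩
    exact ⟨fun x => A x * B x, hA.mul hB, fun x => by rw [Pi.mul_apply, hA', hB']⟩
  one_mem' := ⟨fun _ => 1, analyticOnNhd_const, fun _ => rfl⟩
  add_mem' := by
    rintro a b ⟨A, hA, hA'⟩ ⟨B, hB, hB'⟩
    exact ⟨fun x => A x + B x, hA.add hB, fun x => by rw [Pi.add_apply, hA', hB']⟩
  zero_mem' := ⟨fun _ => 0, analyticOnNhd_const, fun _ => rfl⟩
  neg_mem' := by
    rintro a ⟨A, hA, hA'⟩
    exact ⟨fun x => -A x, hA.neg, fun x => by rw [Pi.neg_apply, hA']⟩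

theorem isDomain_An2 {δ : ℝ} (hδ : 0 < δ) : IsDomain (An2 δ) := by
  have h0 : (0 : Fin 2 → ℂ) ∈ ball (0 : Fin 2 → ℂ) δ := mem_ball_self hδ
  have hnt : Nontrivial (An2 δ) := by
    refine ⟨⟨0, 1, fun h => ?_⟩⟩
    have h1 : ((0 : An2 δ) : ball (0 : Fin 2 → ℂ) δ → ℂ) ⟨0, h0⟩ =
        ((1 : An2 δ) : ball (0 : Fin 2 → ℂ) δ → ℂ) ⟨0, h0⟩ := by rw [h]
    exact zero_ne_one h1
  have hnz : NoZeroDivisors (An2 δ) := by
    refine ⟨?_⟩
    rintro ⟨a, A, hA, hA'⟩ ⟨b, B, hB, hB'⟩ hab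
    have hAB : ∀ x ∈ ball (0 : Fin 2 → ℂ) δ, A x * B x = 0 := by
      intro x hx
      have h1 := congrFun (congrArg Subtype.val hab) ⟨x, hx⟩
      change a ⟨x, hx⟩ * b ⟨x, hx⟩ = 0 at h1
      rwa [hA', hB'] at h1
    by_cases hA0 : ∀ x ∈ ball (0 : Fin 2 → ℂ) δ, A x = 0
    · left
      apply Subtype.ext
      funext x
      change a x = 0
      rw [hA', hA0 x x.2]
    · right
      push Not at hA0
      obtain ⟨x₁, hx₁, hx₁'⟩ := hA0
      have h1 : B =ᶠ[𝓝 x₁] 0 := by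
        filter_upwards [(hA x₁ hx₁).continuousAt.eventually_ne hx₁',
          isOpen_ball.mem_nhds hx₁] with x hx hxb
        exact (mul_eq_zero.1 (hAB x hxb)).resolve_left hx
      have h2 := hB.eqOn_zero_of_preconnected_of_eventuallyEq_zero
        (convex_ball (0 : Fin 2 → ℂ) δ).isPreconnected hx₁ h1
      apply Subtype.ext
      funext x
      change b x = 0
      rw [hB', h2 x.2]
      rfl
  exact NoZeroDivisors.to_isDomain _

theorem exists_kernel {δ : ℝ} (hδ : 0 < δ) {m : Fin d → Fin d → (Fin 2 → ℂ) → ℂ}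
    (hm : ∀ l k, AnalyticOnNhd ℂ (m l k) (ball 0 δ))
    (h0 : ∀ v ∈ ball (0 : Fin 2 → ℂ) δ, (Matrix.of fun l k => m l k v).det = 0) :
    ∃ c : Fin d → (Fin 2 → ℂ) → ℂ, (∀ l, AnalyticOnNhd ℂ (c l) (ball 0 δ)) ∧
      (∃ l, ∃ v ∈ ball (0 : Fin 2 → ℂ) δ, c l v ≠ 0) ∧
      ∀ v ∈ ball (0 : Fin 2 → ℂ) δ, ∀ k, ∑ l, c l v * m l k v = 0 := by
  have := isDomain_An2 hδ
  let M : Matrix (Fin d) (Fin d) (An2 δ) :=
    Matrix.of fun l k => ⟨fun x => m l k x, m l k, hm l k, fun _ => rfl⟩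
  have hdet : M.det = 0 := by
    apply Subtype.ext
    funext x
    let evx : An2 δ →+* ℂ := (Pi.evalRingHom (fun _ : ball (0 : Fin 2 → ℂ) δ => ℂ) x).comp
      (An2 δ).subtype
    have h1 := evx.map_det M
    change (M.det : ball (0 : Fin 2 → ℂ) δ → ℂ) x = _ at h1
    rw [h1]
    have h2 := h0 x x.2
    have h3 : evx.mapMatrix M = Matrix.of fun l k => m l k x := rfl
    rw [h3, h2]
    rfl
  obtain ⟨c, hc, hcM⟩ := Matrix.exists_vecMul_eq_zero_iff.2 hdet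
  choose C hC hC' using fun l => (c l).2
  refine ⟨C, hC, ?_, fun v hv k => ?_⟩
  · by_contra hcon
    push Not at hcon
    apply hc
    funext l
    apply Subtype.ext
    funext x
    rw [hC', hcon l x x.2]
    rfl
  · have h1 := congrFun hcM k
    have h2 := congrFun (congrArg Subtype.val h1) ⟨v, hv⟩
    simp only [Matrix.vecMul, dotProduct] at h2
    rw [AddSubmonoidClass.coe_finsetSum, Finset.sum_apply] at h2
    rw [← show ((0 : Fin d → An2 δ) k : ball (0 : Fin 2 → ℂ) δ → ℂ) ⟨v, hv⟩ = 0 from rfl, ← h2]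
    refine Finset.sum_congr rfl fun l _ => ?_
    change C l v * m l k v = ((c l : An2 δ) : ball (0 : Fin 2 → ℂ) δ → ℂ) ⟨v, hv⟩ * m l k v
    rw [hC']

/-- the data on a small polydisc -/
structure Set3 (f e e' : (Fin 3 → ℂ) → ℂ) (b : Fin d → (Fin 3 → ℂ) → ℂ) (r K η : ℝ) : Prop where
  B : Bas ![f, e, e'] b
  D : Dv ![f, e, e'] b r K η
  crit : ∀ x ∈ ball (0 : Fin 3 → ℂ) r, f x = 0 → (∀ l, pd l f x = 0) → x = 0

variable {f e e' : (Fin 3 → ℂ) → ℂ} {b : Fin d → (Fin 3 → ℂ) → ℂ} {r K η : ℝ}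

/-- the points of the fibre -/
structure Pts (f e e' : (Fin 3 → ℂ) → ℂ) (b : Fin d → (Fin 3 → ℂ) → ℂ) (r : ℝ) (q : ℂ × ℂ)
    (x : Fin d → (Fin 3 → ℂ)) : Prop where
  mem : ∀ i, x i ∈ ball (0 : Fin 3 → ℂ) r
  hf : ∀ i, f (x i) = 0
  he : ∀ i, e (x i) = q.1
  he' : ∀ i, e' (x i) = q.2
  jac : ∀ i, jac3 f e e' (x i) ≠ 0
  det : (Matrix.of fun k i => b k (x i)).det ≠ 0

namespace Set3

variable (S : Set3 f e e' b r K η)

include S

theorem hf : Bh r K f := S.D.S.bs 0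
theorem he : Bh r K e := S.D.S.bs 1
theorem he' : Bh r K e' := S.D.S.bs 2

omit S in
theorem an {g : (Fin 3 → ℂ) → ℂ} {M : ℝ} (hg : Bh r M g) :
    AnalyticOnNhd ℂ g (ball (0 : Fin 3 → ℂ) r) := fun _ hx =>
  Vale.Agent.P097.Hol.analyticAt_of_differentiableOn isOpen_ball hg.1 hx

theorem e0 : e 0 = 0 := S.B.hs0 1
theorem e0' : e' 0 = 0 := S.B.hs0 2
theorem f0 : f 0 = 0 := S.B.hs0 0

theorem ae_pts : ∀ᵐ q : ℂ × ℂ, q ≠ 0 ∧ (‖q‖ < η → ∃ x, Pts f e e' b r q x) := by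
  have h1 := H373.ae_fibre (Ω := ball (0 : Fin 3 → ℂ) r) isOpen_ball (Set3.an S.hf) (Set3.an S.he)
    (Set3.an S.he') 0
  have h2 : ∀ᵐ q : ℂ × ℂ, q ∉ ({0} : Set (ℂ × ℂ)) :=
    measure_eq_zero_iff_ae_notMem.1 (measure_singleton (0 : ℂ × ℂ))
  filter_upwards [h1, h2] with q hq hq0
  have hq0' : q ≠ 0 := hq0
  refine ⟨hq0', fun hqη => ?_⟩
  have hy : (![0, q.1, q.2] : Fin 3 → ℂ) ∈ ball (0 : Fin 3 → ℂ) η := by
    have h3 := norm_fst_le q
    have h4 := norm_snd_le q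
    rw [mem_ball_zero_iff, pi_norm_lt_iff S.D.hη]
    intro j
    fin_cases j
    · simpa using S.D.hη
    · exact h3.trans_lt hqη
    · exact h4.trans_lt hqη
  have hreg : ∀ x ∈ ball (0 : Fin 3 → ℂ) r, f x = 0 → e x = q.1 → e' x = q.2 →
      jac3 f e e' x ≠ 0 := by
    intro x hx hfx hex hex'
    rcases hq x hx hfx hex hex' with h3 | h3
    · exfalso
      have h4 := S.crit x hx hfx h3
      rw [h4, S.e0] at hex
      rw [h4, S.e0'] at hex'
      exact hq0' (Prod.ext hex.symm hex'.symm)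
    · exact h3
  obtain ⟨x, hx, hdet⟩ := exists_pts S.D S.B hy (fun x hx hsx => by
    have e0 := hsx 0
    have e1 := hsx 1
    have e2 := hsx 2
    exact hreg x hx e0 e1 e2)
  have e0 : ∀ i, f (x i) = 0 := fun i => (hx i).2 0
  have e1 : ∀ i, e (x i) = q.1 := fun i => (hx i).2 1
  have e2 : ∀ i, e' (x i) = q.2 := fun i => (hx i).2 2
  exact ⟨x, fun i => (hx i).1, e0, e1, e2, fun i => hreg _ (hx i).1 (e0 i) (e1 i) (e2 i), hdet⟩

/-- small values are taken near `0` only -/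
theorem small {δ : ℝ} (hδ : 0 < δ) : ∃ δ' > 0, ∀ x ∈ ball (0 : Fin 3 → ℂ) r, f x = 0 →
    ‖e x‖ < δ' → ‖e' x‖ < δ' → x ∈ ball (0 : Fin 3 → ℂ) δ := by
  obtain ⟨L, -, hpw⟩ := S.D.pw
  have hK := S.D.S.hK
  refine ⟨δ ^ L / (3 * K + 1), by positivity, fun x hx hfx hex hex' => ?_⟩
  rw [mem_ball_zero_iff, pi_norm_lt_iff hδ]
  intro i
  obtain ⟨α, hα, hxα⟩ := hpw i
  have h1 := hxα x hx
  rw [Fin.sum_univ_three] at h1
  have e0 : (![f, e, e'] : Fin 3 → (Fin 3 → ℂ) → ℂ) 0 x = 0 := hfx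
  have e1 : (![f, e, e'] : Fin 3 → (Fin 3 → ℂ) → ℂ) 1 x = e x := rfl
  have e2 : (![f, e, e'] : Fin 3 → (Fin 3 → ℂ) → ℂ) 2 x = e' x := rfl
  rw [e0, e1, e2, zero_mul, zero_add] at h1
  have h2 : ‖x i‖ ^ L < δ ^ L := by
    rw [← norm_pow, h1]
    have h3 : ‖e x * α 1 x‖ ≤ δ ^ L / (3 * K + 1) * K := by
      rw [norm_mul]
      exact mul_le_mul hex.le ((hα 1).2 x hx) (norm_nonneg _) (by positivity)
    have h4 : ‖e' x * α 2 x‖ ≤ δ ^ L / (3 * K + 1) * K := by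
      rw [norm_mul]
      exact mul_le_mul hex'.le ((hα 2).2 x hx) (norm_nonneg _) (by positivity)
    refine ((norm_add_le _ _).trans (add_le_add h3 h4)).trans_lt ?_
    have h5 : δ ^ L / (3 * K + 1) * (3 * K + 1) = δ ^ L := by field_simp
    have h6 : 0 < δ ^ L / (3 * K + 1) := by positivity
    nlinarith
  exact lt_of_pow_lt_pow_left₀ L hδ.le h2

end Set3

/-- the matrix of multiplication by `g` -/
structure Mt (f e e' : (Fin 3 → ℂ) → ℂ) (b : Fin d → (Fin 3 → ℂ) → ℂ) (r η : ℝ)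
    (g : (Fin 3 → ℂ) → ℂ) (m : Fin d → Fin d → (Fin 3 → ℂ) → ℂ) : Prop where
  rep : ∀ l, Rep ![f, e, e'] b r η (fun x => g x * b l x) (m l)

/-- the parameters -/
def par (v : Fin 2 → ℂ) : Fin 3 → ℂ := ![0, v 0, v 1]

theorem par_mem {δ : ℝ} {v : Fin 2 → ℂ} (hv : v ∈ ball (0 : Fin 2 → ℂ) δ) :
    par v ∈ ball (0 : Fin 3 → ℂ) δ := by
  have hδ : 0 < δ := (norm_nonneg v).trans_lt (mem_ball_zero_iff.1 hv)
  rw [mem_ball_zero_iff, pi_norm_lt_iff hδ]
  intro j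
  fin_cases j
  · simpa [par] using hδ
  · exact norm_apply_lt hv 0
  · exact norm_apply_lt hv 1

theorem par_diff : Differentiable ℂ par := by
  rw [differentiable_pi]
  intro j
  fin_cases j
  · exact differentiable_const _
  · exact differentiable_apply 0
  · exact differentiable_apply 1

theorem Set3.exists_mt (S : Set3 f e e' b r K η) {g : (Fin 3 → ℂ) → ℂ} {M : ℝ} (hg : Bh r M g) :
    ∃ m, Mt f e e' b r η g m := by
  choose C _ hC using fun l => S.D.N (fun x => g x * b l x) (M * K) (hg.mul (S.D.S.bb l))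
  exact ⟨C, ⟨hC⟩⟩

namespace Mt

variable {g : (Fin 3 → ℂ) → ℂ} {m : Fin d → Fin d → (Fin 3 → ℂ) → ℂ}

theorem an (M : Mt f e e' b r η g m) (l k : Fin d) :
    AnalyticOnNhd ℂ (fun v => m l k (par v)) (ball (0 : Fin 2 → ℂ) η) := by
  intro v hv
  have h1 : DifferentiableOn ℂ (fun v => m l k (par v)) (ball (0 : Fin 2 → ℂ) η) :=
    ((M.rep l).hol k).comp par_diff.differentiableOn fun v hv => par_mem hv
  exact Vale.Agent.P097.Hol.analyticAt_of_differentiableOn isOpen_ball h1 hv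

/-- the eigenvector relation -/
theorem eig (M : Mt f e e' b r η g m) {x : Fin 3 → ℂ} (hx : x ∈ ball (0 : Fin 3 → ℂ) r)
    (hfx : f x = 0) {v : Fin 2 → ℂ} (hv : v ∈ ball (0 : Fin 2 → ℂ) η) (h0 : e x = v 0)
    (h1 : e' x = v 1) (l : Fin d) : g x * b l x = ∑ k, m l k (par v) * b k x := by
  obtain ⟨G, -, hG⟩ := (M.rep l).eq (par v) (par_mem hv)
  have h2 := hG x hx
  rw [Fin.sum_univ_three] at h2
  have e0 : (![f, e, e'] : Fin 3 → (Fin 3 → ℂ) → ℂ) 0 x - par v 0 = 0 := by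
    change f x - 0 = 0
    rw [hfx, sub_zero]
  have e1 : (![f, e, e'] : Fin 3 → (Fin 3 → ℂ) → ℂ) 1 x - par v 1 = 0 := by
    change e x - v 0 = 0
    rw [h0, sub_self]
  have e2 : (![f, e, e'] : Fin 3 → (Fin 3 → ℂ) → ℂ) 2 x - par v 2 = 0 := by
    change e' x - v 1 = 0
    rw [h1, sub_self]
  rw [e0, e1, e2] at h2
  rw [h2]
  ring

theorem mul_eq (M : Mt f e e' b r η g m) {q : ℂ × ℂ} (hq : ‖q‖ < η) {x : Fin d → (Fin 3 → ℂ)}
    (P : Pts f e e' b r q x) :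
    (Matrix.of fun l k => m l k (par ![q.1, q.2])) * (Matrix.of fun k i => b k (x i)) =
      (Matrix.of fun k i => b k (x i)) * Matrix.diagonal fun i => g (x i) := by
  have hη : 0 < η := (norm_nonneg q).trans_lt hq
  have hv : (![q.1, q.2] : Fin 2 → ℂ) ∈ ball (0 : Fin 2 → ℂ) η := by
    rw [mem_ball_zero_iff, pi_norm_lt_iff hη]
    intro j
    fin_cases j
    · exact (norm_fst_le q).trans_lt hq
    · exact (norm_snd_le q).trans_lt hq
  ext1 l i
  rw [Matrix.mul_apply, Matrix.mul_diagonal, Matrix.of_apply, mul_comm]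
  exact (M.eig (P.mem i) (P.hf i) hv (P.he i) (P.he' i) l).symm

theorem det_eq (M : Mt f e e' b r η g m) {q : ℂ × ℂ} (hq : ‖q‖ < η) {x : Fin d → (Fin 3 → ℂ)}
    (P : Pts f e e' b r q x) :
    (Matrix.of fun l k => m l k (par ![q.1, q.2])).det = ∏ i, g (x i) := by
  have h1 := congrArg Matrix.det (M.mul_eq hq P)
  rw [Matrix.det_mul, Matrix.det_mul, Matrix.det_diagonal, mul_comm] at h1
  exact mul_left_cancel₀ P.det h1

theorem trace_eq (M : Mt f e e' b r η g m) {q : ℂ × ℂ} (hq : ‖q‖ < η)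
    {x : Fin d → (Fin 3 → ℂ)} (P : Pts f e e' b r q x) :
    (Matrix.of fun l k => m l k (par ![q.1, q.2])).trace = ∑ i, g (x i) := by
  set A := Matrix.of fun l k => m l k (par ![q.1, q.2]) with hA
  set Bm : Matrix (Fin d) (Fin d) ℂ := Matrix.of fun k i => b k (x i) with hBm
  have hu : IsUnit Bm.det := isUnit_iff_ne_zero.2 P.det
  have h1 : A = Bm * (Matrix.diagonal fun i => g (x i)) * Bm⁻¹ := by
    rw [← M.mul_eq hq P, Matrix.mul_assoc, Matrix.mul_nonsing_inv _ hu, Matrix.mul_one]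
  rw [h1, Matrix.trace_mul_comm, ← Matrix.mul_assoc, Matrix.nonsing_inv_mul _ hu, Matrix.one_mul,
    Matrix.trace_diagonal]

theorem det_an (M : Mt f e e' b r η g m) :
    AnalyticOnNhd ℂ (fun v : Fin 2 → ℂ => (Matrix.of fun l k => m l k (par v)).det)
      (ball (0 : Fin 2 → ℂ) η) := by
  have h1 : (fun v : Fin 2 → ℂ => (Matrix.of fun l k => m l k (par v)).det) =
      fun v => ∑ σ : Equiv.Perm (Fin d), ((Equiv.Perm.sign σ : ℤ) : ℂ) *
        ∏ i, m (σ i) i (par v) := by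
    funext v
    rw [Matrix.det_apply']
    rfl
  rw [h1]
  intro v hv
  refine Finset.analyticAt_fun_sum _ fun σ _ => analyticAt_const.mul ?_
  exact Finset.analyticAt_fun_prod _ fun i _ => M.an _ _ v hv

end Mt

/-- the determinant of multiplication by `∂₃ f` is not zero -/
theorem Set3.pd_ne (S : Set3 f e e' b r K η) (hz : ∃ᶠ z in 𝓝 (0 : ℂ), f ![0, 0, z] ≠ 0)
    {m : Fin d → Fin d → (Fin 3 → ℂ) → ℂ} (M : Mt f e e' b r η (pd 2 f) m) :
    ¬ ∀ᶠ v in 𝓝 (0 : Fin 2 → ℂ), (Matrix.of fun l k => m l k (par v)).det = 0 := by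
  intro hev
  have hη := S.D.hη
  have hzero : ∀ v ∈ ball (0 : Fin 2 → ℂ) η, (Matrix.of fun l k => m l k (par v)).det = 0 := by
    intro v hv
    exact M.det_an.eqOn_zero_of_preconnected_of_eventuallyEq_zero
      (convex_ball (0 : Fin 2 → ℂ) η).isPreconnected (mem_ball_self hη) hev hv
  obtain ⟨c, hc, ⟨l₀, v₀, hv₀, hcv₀⟩, hker⟩ := exists_kernel hη (fun l k => M.an l k) hzero
  refine not_vertical S.hf.1 S.D.S.hr hz fun δ hδ => ?_
  obtain ⟨δ', hδ', hsm⟩ := S.small hδ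
  -- a point where the kernel vector is not zero
  obtain ⟨v₁, hv₁, hcv₁⟩ : ∃ v₁ ∈ ball (0 : Fin 2 → ℂ) (min δ' η), c l₀ v₁ ≠ 0 := by
    by_contra hcon
    push Not at hcon
    have h1 : c l₀ =ᶠ[𝓝 0] 0 := by
      filter_upwards [ball_mem_nhds (0 : Fin 2 → ℂ) (lt_min hδ' hη)] with v hv
      exact hcon v hv
    exact hcv₀ ((hc l₀).eqOn_zero_of_preconnected_of_eventuallyEq_zero
      (convex_ball (0 : Fin 2 → ℂ) η).isPreconnected (mem_ball_self hη) h1 hv₀)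
  have hv₁η : v₁ ∈ ball (0 : Fin 2 → ℂ) η := ball_subset_ball (min_le_right _ _) hv₁
  -- a regular point near it
  have hκc : Continuous fun q : ℂ × ℂ => (![q.1, q.2] : Fin 2 → ℂ) := by
    refine continuous_pi fun j => ?_
    fin_cases j
    · exact continuous_fst
    · exact continuous_snd
  have hev2 : ∀ᶠ q : ℂ × ℂ in 𝓝 (v₁ 0, v₁ 1), (![q.1, q.2] : Fin 2 → ℂ) ∈
      ball (0 : Fin 2 → ℂ) (min δ' η) ∧ c l₀ ![q.1, q.2] ≠ 0 := by
    have h1 : (![(v₁ 0, v₁ 1).1, (v₁ 0, v₁ 1).2] : Fin 2 → ℂ) = v₁ := by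
      funext j; fin_cases j <;> rfl
    have h2 : Tendsto (fun q : ℂ × ℂ => (![q.1, q.2] : Fin 2 → ℂ)) (𝓝 (v₁ 0, v₁ 1)) (𝓝 v₁) := by
      have := hκc.tendsto (v₁ 0, v₁ 1)
      rwa [h1] at this
    exact (h2.eventually (isOpen_ball.mem_nhds hv₁)).and
      (h2.eventually ((hc l₀ v₁ hv₁η).continuousAt.eventually_ne hcv₁))
  obtain ⟨U, hU, hUo, hUm⟩ := _root_.eventually_nhds_iff.1 hev2
  have hdense := Measure.dense_of_ae S.ae_pts
  obtain ⟨q, hqU, hq0, hqx⟩ := hdense.inter_open_nonempty U hUo ⟨_, hUm⟩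
  obtain ⟨hqb, hcq⟩ := hU q hqU
  have hqn : ‖q‖ < min δ' η := by
    have h0 := norm_apply_lt hqb 0
    have h1 := norm_apply_lt hqb 1
    rw [Prod.norm_def]
    exact max_lt h0 h1
  obtain ⟨x, P⟩ := hqx (hqn.trans_le (min_le_right _ _))
  have hi : ∃ i, ∑ l, c l ![q.1, q.2] * b l (x i) ≠ 0 := by
    by_contra hcon
    push Not at hcon
    have h1 : Matrix.vecMul (fun l => c l ![q.1, q.2]) (Matrix.of fun k i => b k (x i)) = 0 := by
      funext i
      exact hcon i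
    have h2 := Matrix.eq_zero_of_vecMul_eq_zero P.det h1
    exact hcq (congrFun h2 l₀)
  obtain ⟨i, hi⟩ := hi
  have hxi := P.mem i
  have hex : ‖e (x i)‖ < δ' := by
    rw [P.he i]; exact (norm_fst_le q).trans_lt (hqn.trans_le (min_le_left _ _))
  have hex' : ‖e' (x i)‖ < δ' := by
    rw [P.he' i]; exact (norm_snd_le q).trans_lt (hqn.trans_le (min_le_left _ _))
  refine ⟨x i, hsm _ hxi (P.hf i) hex hex', hxi, P.hf i, ?_, ?_⟩
  · by_contra hcon
    push Not at hcon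
    apply P.jac i
    rw [jac3]
    exact Matrix.det_eq_zero_of_row_eq_zero 0 fun j => hcon j
  · -- continuity of the kernel function
    have hea := (Set3.an S.he) _ hxi
    have hea' := (Set3.an S.he') _ hxi
    have hec : Tendsto (fun z : Fin 3 → ℂ => (![e z, e' z] : Fin 2 → ℂ)) (𝓝 (x i))
        (𝓝 ![q.1, q.2]) := by
      have h1 : (![q.1, q.2] : Fin 2 → ℂ) = ![e (x i), e' (x i)] := by rw [P.he i, P.he' i]
      rw [h1]
      refine tendsto_pi_nhds.2 fun j => ?_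
      fin_cases j
      · exact hea.continuousAt.tendsto
      · exact hea'.continuousAt.tendsto
    have hqη : (![q.1, q.2] : Fin 2 → ℂ) ∈ ball (0 : Fin 2 → ℂ) η :=
      ball_subset_ball (min_le_right _ _) hqb
    have hcont : Tendsto (fun z : Fin 3 → ℂ => ∑ l, c l ![e z, e' z] * b l z) (𝓝 (x i))
        (𝓝 (∑ l, c l ![q.1, q.2] * b l (x i))) := by
      refine tendsto_finsetSum _ fun l _ => ?_
      exact ((hc l _ hqη).continuousAt.tendsto.comp hec).mul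
        ((Set3.an (S.D.S.bb l)) _ hxi).continuousAt.tendsto
    filter_upwards [hcont.eventually_ne hi, isOpen_ball.mem_nhds hxi,
      hec.eventually (isOpen_ball.mem_nhds hqη)] with z hz hzr hzη hfz
    have h1 : pd 2 f z * ∑ l, c l ![e z, e' z] * b l z = 0 := by
      have h2 : ∀ l, pd 2 f z * (c l ![e z, e' z] * b l z) =
          ∑ k, c l ![e z, e' z] * m l k (par ![e z, e' z]) * b k z := by
        intro l
        have h3 := M.eig hzr hfz hzη rfl rfl l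
        calc pd 2 f z * (c l ![e z, e' z] * b l z) = c l ![e z, e' z] * (pd 2 f z * b l z) := by ring
          _ = _ := by
            rw [h3, Finset.mul_sum]
            exact Finset.sum_congr rfl fun k _ => by ring
      rw [Finset.mul_sum, Finset.sum_congr rfl fun l _ => h2 l, Finset.sum_comm]
      refine Finset.sum_eq_zero fun k _ => ?_
      rw [← Finset.sum_mul, hker _ hzη k, zero_mul]
    exact (mul_eq_zero.1 h1).resolve_right hz

end Vale.Agent.P298.H714
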