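import Vale.Agent.P298.H714.Lim
import Vale.Agent.P097.H407.Hol

/-!
P298, row E1-LOW (helper714), part 3: the Hadamard (Gleason) lemma with bounds on a polydisc.
-/

namespace Vale.Agent.P298.H714

open Filter Topology Metric Set Vale.Agent.P298

variable {n : ℕ}

/-- the first `i` coordinates of `z`, the other ones of `x` -/
def mix (x z : Fin n → ℂ) (i : ℕ) : Fin n → ℂ := fun j => if (j : ℕ) < i then z j else x j

theorem mix_zero (x z : Fin n → ℂ) : mix x z 0 = x := by
  funext j; simp [mix]

theorem mix_last (x z : Fin n → ℂ) : mix x z n = z := by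
  funext j; simp [mix]

theorem mix_mem {r : ℝ} {x z : Fin n → ℂ} (hx : x ∈ ball (0 : Fin n → ℂ) r)
    (hz : z ∈ ball (0 : Fin n → ℂ) r) (i : ℕ) : mix x z i ∈ ball (0 : Fin n → ℂ) r := by
  rw [mem_ball_zero_iff, pi_norm_lt_iff ((norm_nonneg x).trans_lt (mem_ball_zero_iff.1 hx))]
  intro j
  unfold mix
  split_ifs
  · exact norm_apply_lt hz j
  · exact norm_apply_lt hx j

theorem mix_succ (x z : Fin n → ℂ) (i : Fin n) :
    mix x z (i + 1) = Function.update (mix x z i) i (z i) := by
  funext j
  by_cases hj : j = i
  · subst hj; simp [mix]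
  · rw [Function.update_of_ne hj]
    unfold mix
    have : ((j : ℕ) < i + 1) ↔ ((j : ℕ) < i) := by
      have : (j : ℕ) ≠ i := fun h => hj (Fin.ext h)
      omega
    simp only [this]

theorem mix_self (x z : Fin n → ℂ) (i : Fin n) :
    Function.update (mix x z i) i (x i) = mix x z i := by
  funext j
  by_cases hj : j = i
  · subst hj; simp [mix]
  · rw [Function.update_of_ne hj]

theorem mix_update (x z : Fin n → ℂ) (i : Fin n) (τ : ℂ) :
    mix x (Function.update z i τ) (i + 1) = Function.update (mix x z i) i τ := by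
  rw [mix_succ, Function.update_self]
  congr 1
  funext j
  unfold mix
  split_ifs with h
  · have hj : j ≠ i := fun h' => by subst h'; exact lt_irrefl _ h
    rw [Function.update_of_ne hj]
  · rfl

theorem differentiable_mix (x : Fin n → ℂ) (i : ℕ) : Differentiable ℂ (fun z => mix x z i) := by
  rw [differentiable_pi]
  intro j
  unfold mix
  by_cases h : (j : ℕ) < i
  · simp only [h, if_true]; exact differentiable_apply j
  · simp only [h, if_false]; exact differentiable_const _

/-- projection killing the coordinate `i` -/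
noncomputable def kill (i : Fin n) : (Fin n → ℂ) →L[ℂ] (Fin n → ℂ) :=
  ContinuousLinearMap.id ℂ _ -
    (ContinuousLinearMap.single ℂ (fun _ : Fin n => ℂ) i).comp (ContinuousLinearMap.proj i)

theorem kill_apply (i : Fin n) (v : Fin n → ℂ) : kill i v = Function.update v i 0 := by
  funext j
  by_cases hj : j = i
  · subst hj; simp [kill]
  · simp [kill, hj]

theorem norm_kill_le (i : Fin n) : ‖kill i‖ ≤ 1 := by
  refine ContinuousLinearMap.opNorm_le_bound _ zero_le_one fun v => ?_
  rw [kill_apply, one_mul, pi_norm_le_iff_of_nonneg (norm_nonneg v)]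
  intro j
  by_cases hj : j = i
  · subst hj; simp
  · rw [Function.update_of_ne hj]; exact norm_le_pi_norm v j

/-- the difference quotient in the variable `i` -/
noncomputable def dq (g : (Fin n → ℂ) → ℂ) (x : Fin n → ℂ) (i : Fin n) (z : Fin n → ℂ) : ℂ :=
  dslope (fun τ : ℂ => g (Function.update (mix x z i) i τ)) (x i) (z i)

theorem dq_identity (g : (Fin n → ℂ) → ℂ) (x z : Fin n → ℂ) (i : Fin n) :
    g (mix x z (i + 1)) - g (mix x z i) = (z i - x i) * dq g x i z := by
  have h := sub_smul_dslope (fun τ : ℂ => g (Function.update (mix x z i) i τ)) (x i) (z i)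
  rw [smul_eq_mul] at h
  rw [dq, h, mix_succ, mix_self]

theorem dq_eq {r M : ℝ} {g : (Fin n → ℂ) → ℂ} (hg : Bh r M g) {x z₀ : Fin n → ℂ}
    (hx : x ∈ ball (0 : Fin n → ℂ) r) (hz₀ : z₀ ∈ ball (0 : Fin n → ℂ) r) {i : Fin n}
    (hi : z₀ i = x i) :
    ∃ Q : (Fin n → ℂ) → ((Fin n → ℂ) →L[ℂ] ℂ), AnalyticAt ℂ Q z₀ ∧
      ∀ᶠ v in 𝓝 z₀, dq g x i v = Q v (Pi.single i 1) := by
  have hga : AnalyticAt ℂ (fun z => g (mix x z (i + 1))) z₀ := by
    have h1 : DifferentiableOn ℂ (fun z => g (mix x z (i + 1))) (ball (0 : Fin n → ℂ) r) :=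
      hg.1.comp (differentiable_mix x (i + 1)).differentiableOn fun z hz => mix_mem hx hz _
    exact Vale.Agent.P097.Hol.analyticAt_of_differentiableOn isOpen_ball h1 hz₀
  obtain ⟨Q, hQ, H⟩ := exists_division (kill i) (norm_kill_le i) hga
  refine ⟨Q, hQ, ?_⟩
  -- the identity in terms of coordinates
  have H' : ∀ᶠ v in 𝓝 z₀, g (mix x v (i + 1)) - g (mix x (Function.update v i (x i)) (i + 1)) =
      (v i - x i) * Q v (Pi.single i 1) := by
    filter_upwards [H] with v hv
    have h2 : z₀ + kill i (v - z₀) = Function.update v i (x i) := by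
      rw [kill_apply]
      funext j
      by_cases hj : j = i
      · subst hj; simp [hi]
      · simp [Function.update_of_ne hj]
    have h3 : v - Function.update v i (x i) = (v i - x i) • (Pi.single i 1 : Fin n → ℂ) := by
      funext j
      by_cases hj : j = i
      · subst hj; simp
      · simp [hj]
    rw [h2, h3, map_smul, smul_eq_mul] at hv
    exact hv
  have H'' := H'.eventually_nhds
  have hQe : ∀ᶠ v in 𝓝 z₀, ContinuousAt Q v := hQ.eventually_analyticAt.mono fun v h =>
    h.continuousAt
  filter_upwards [H'', hQe] with v hv hQv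
  by_cases hvi : v i = x i
  · -- the derivative
    unfold dq
    rw [hvi, dslope_same]
    have hcont : Tendsto (fun τ : ℂ => Function.update v i τ) (𝓝 (x i)) (𝓝 v) := by
      have h4 : ContinuousAt (fun τ : ℂ => Function.update v i τ) (x i) :=
        (differentiable_update v i (x i)).continuousAt
      have h5 : Function.update v i (x i) = v := by
        rw [← hvi, Function.update_eq_self]
      have := h4.tendsto
      rwa [h5] at this
    have h6 := hcont.eventually hv
    have h7 : ∀ᶠ τ in 𝓝 (x i), g (Function.update (mix x v i) i τ) =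
        g (Function.update (mix x v i) i (x i)) +
          (τ - x i) * Q (Function.update v i τ) (Pi.single i 1) := by
      filter_upwards [h6] with τ hτ
      rw [mix_update, Function.update_idem, mix_update, Function.update_self] at hτ
      rw [← hτ]; ring
    have hQc : ContinuousAt (fun τ : ℂ => Q (Function.update v i τ) (Pi.single i 1)) (x i) := by
      have h8 : ContinuousAt (fun τ : ℂ => Q (Function.update v i τ)) (x i) := by
        refine ContinuousAt.comp (g := Q) ?_ (differentiable_update v i (x i)).continuousAt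
        rw [← hvi, Function.update_eq_self]
        exact hQv
      exact h8.clm_apply continuousAt_const
    have h9 : HasDerivAt (fun τ : ℂ => g (Function.update (mix x v i) i τ))
        (Q v (Pi.single i 1)) (x i) := by
      have h10 : HasDerivAt (fun τ : ℂ => g (Function.update (mix x v i) i (x i)) +
          (τ - x i) * Q (Function.update v i τ) (Pi.single i 1)) (Q v (Pi.single i 1)) (x i) := by
        rw [hasDerivAt_iff_tendsto_slope]
        have h11 : Q v (Pi.single i 1) = Q (Function.update v i (x i)) (Pi.single i 1) := by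
          rw [← hvi, Function.update_eq_self]
        rw [h11]
        refine (hQc.tendsto.mono_left nhdsWithin_le_nhds).congr' ?_
        filter_upwards [self_mem_nhdsWithin] with τ hτ
        rw [slope_def_field]
        have : τ - x i ≠ 0 := sub_ne_zero.2 hτ
        field_simp
        ring
      exact h10.congr_of_eventuallyEq h7
    exact h9.deriv
  · have h4 := hv.self_of_nhds
    have h5 := dq_identity g x v i
    have h6 : mix x (Function.update v i (x i)) (i + 1) = mix x v i := by
      rw [mix_update, mix_self]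
    rw [h6, h5] at h4
    exact mul_left_cancel₀ (sub_ne_zero.2 hvi) h4

theorem dq_bh {r M : ℝ} {g : (Fin n → ℂ) → ℂ} (hg : Bh r M g) {x : Fin n → ℂ}
    (hx : x ∈ ball (0 : Fin n → ℂ) r) (i : Fin n) : Bh r (2 * M / (r - ‖x‖)) (dq g x i) := by
  have hr : 0 < r := (norm_nonneg x).trans_lt (mem_ball_zero_iff.1 hx)
  have hM := hg.nonneg hr
  have hxr : 0 < r - ‖x‖ := by
    have := mem_ball_zero_iff.1 hx; linarith
  refine ⟨?_, ?_⟩
  · intro z hz
    apply DifferentiableAt.differentiableWithinAt
    by_cases hi : z i = x i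
    · obtain ⟨Q, hQ, H⟩ := dq_eq hg hx hz hi
      have h1 : DifferentiableAt ℂ (fun v => Q v (Pi.single i 1)) z :=
        hQ.differentiableAt.clm_apply (differentiableAt_const _)
      exact h1.congr_of_eventuallyEq H
    · have h1 : DifferentiableAt ℂ (fun v => (g (mix x v (i + 1)) - g (mix x v i)) /
          (v i - x i)) z := by
        have h0 : DifferentiableAt ℂ (fun v : Fin n → ℂ => v i - x i) z :=
          (differentiable_apply (𝕜 := ℂ) i).differentiableAt.sub_const _
        have h01 : DifferentiableAt ℂ (fun v => g (mix x v (i + 1))) z :=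
          (hg.1.differentiableAt (isOpen_ball.mem_nhds (mix_mem hx hz _))).comp z
            (differentiable_mix x _ z)
        have h02 : DifferentiableAt ℂ (fun v => g (mix x v i)) z :=
          (hg.1.differentiableAt (isOpen_ball.mem_nhds (mix_mem hx hz _))).comp z
            (differentiable_mix x _ z)
        have h03 : (fun v : Fin n → ℂ => v i - x i) z ≠ 0 := sub_ne_zero.2 hi
        simp only [div_eq_mul_inv]
        exact (h01.sub h02).mul (h0.inv h03)
      refine h1.congr_of_eventuallyEq ?_
      have h2 : ∀ᶠ v : Fin n → ℂ in 𝓝 z, v i ≠ x i :=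
        (continuous_apply i).continuousAt.eventually_ne hi
      filter_upwards [h2] with v hv
      rw [dq_identity, mul_div_cancel_left₀ _ (sub_ne_zero.2 hv)]
  · intro z hz
    set φ : ℂ → ℂ := fun τ => g (Function.update (mix x z i) i τ) with hφ
    have hφd : DifferentiableOn ℂ φ (ball 0 r) := hg.1.comp
      (differentiable_update _ i).differentiableOn
      fun τ hτ => update_mem_ball (mix_mem hx hz i) i (by simpa using hτ)
    have hφM : ∀ τ ∈ ball (0 : ℂ) r, ‖φ τ‖ ≤ M := fun τ hτ =>
      hg.2 _ (update_mem_ball (mix_mem hx hz i) i (by simpa using hτ))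
    have hxi : x i ∈ ball (0 : ℂ) r := by simpa using norm_apply_lt hx i
    have hzi : z i ∈ ball (0 : ℂ) r := by simpa using norm_apply_lt hz i
    change ‖dslope φ (x i) (z i)‖ ≤ _
    by_cases hc : ‖z i - x i‖ < r - ‖x‖
    · have hsub : ball (x i) (r - ‖x‖) ⊆ ball (0 : ℂ) r := by
        intro τ hτ
        rw [mem_ball_zero_iff]
        rw [mem_ball, dist_eq_norm] at hτ
        have h1 := norm_le_pi_norm x i
        calc ‖τ‖ = ‖(τ - x i) + x i‖ := by rw [sub_add_cancel]
          _ ≤ ‖τ - x i‖ + ‖x i‖ := norm_add_le _ _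
          _ < r := by linarith
      refine Complex.norm_dslope_le_div_of_mapsTo_ball (hφd.mono hsub) ?_ ?_
      · intro τ hτ
        rw [mem_closedBall, dist_eq_norm]
        calc ‖φ τ - φ (x i)‖ ≤ ‖φ τ‖ + ‖φ (x i)‖ := norm_sub_le _ _
          _ ≤ M + M := add_le_add (hφM τ (hsub hτ)) (hφM _ hxi)
          _ = 2 * M := by ring
      · rw [mem_ball, dist_eq_norm]; exact hc
    · push Not at hc
      have hne : z i ≠ x i := by
        intro h
        rw [h, sub_self, norm_zero] at hc
        linarith
      rw [dslope_of_ne _ hne, slope_def_field, norm_div]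
      refine div_le_div₀ (by positivity) ?_ hxr hc
      calc ‖φ (z i) - φ (x i)‖ ≤ ‖φ (z i)‖ + ‖φ (x i)‖ := norm_sub_le _ _
        _ ≤ M + M := add_le_add (hφM _ hzi) (hφM _ hxi)
        _ = 2 * M := by ring

theorem had (n : ℕ) : HadP n := by
  intro r M x g hr hx hg
  refine ⟨fun i => dq g x i, fun i => dq_bh hg hx i, fun z hz => ?_⟩
  have h1 : ∑ i : Fin n, (g (mix x z (i + 1)) - g (mix x z i)) = g z - g x := by
    rw [Fin.sum_univ_eq_sum_range (fun i => g (mix x z (i + 1)) - g (mix x z i)) n,
      Finset.sum_range_sub (fun i => g (mix x z i)), mix_last, mix_zero]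
  rw [← sub_eq_iff_eq_add', ← h1]
  exact Finset.sum_congr rfl fun i _ => dq_identity g x z i

end Vale.Agent.P298.H714
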