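import Vale.Agent.P298.H714.Neu
import Vale.Agent.P298.H714.Uni

/-!
P298, row E1-LOW (helper714), part 9: the coefficients as functions of the parameter `y`, their
uniqueness, and the independence of the `b_l` modulo (s - y) on a fixed polydisc.
-/

namespace Vale.Agent.P298.H714

open Filter Topology Metric Set Vale.Agent.P298

variable {n k m d : ℕ}

/-- `g = ∑ C_l(y) b_l` modulo (s - y) on the polydisc of radius `r`, for all small `y` -/
structure Rep (s : Fin k → (Fin n → ℂ) → ℂ) (b : Fin d → (Fin n → ℂ) → ℂ) (r η : ℝ)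
    (g : (Fin n → ℂ) → ℂ) (C : Fin d → (Fin k → ℂ) → ℂ) : Prop where
  hol : ∀ l, DifferentiableOn ℂ (C l) (ball 0 η)
  eq : ∀ y ∈ ball (0 : Fin k → ℂ) η, ∃ G : Fin k → (Fin n → ℂ) → ℂ, (∀ j, ∃ M, Bh r M (G j)) ∧
    ∀ x ∈ ball (0 : Fin n → ℂ) r, g x = ∑ l, C l y * b l x + ∑ j, (s j x - y j) * G j x

/-- division data with holomorphic coefficients -/
structure Dv (s : Fin k → (Fin n → ℂ) → ℂ) (b : Fin d → (Fin n → ℂ) → ℂ) (r K η : ℝ) : Prop where
  S : Spl s b r K
  hη : 0 < η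
  N : ∀ (g : (Fin n → ℂ) → ℂ) (M : ℝ), Bh r M g →
    ∃ C : Fin d → (Fin k → ℂ) → ℂ, (∀ l, Bh η (2 * K * M) (C l)) ∧ Rep s b r η g C
  pw : ∃ L : ℕ, (k : ℝ) * K * η < r ^ L ∧ ∀ i : Fin n, ∃ α : Fin k → (Fin n → ℂ) → ℂ,
    (∀ j, Bh r K (α j)) ∧ ∀ x ∈ ball (0 : Fin n → ℂ) r, x i ^ L = ∑ j, s j x * α j x

theorem Spl.exists_dv {s : Fin k → (Fin n → ℂ) → ℂ} {b : Fin d → (Fin n → ℂ) → ℂ} {r K : ℝ}
    (S : Spl s b r K) : ∃ η₀ > 0, ∀ η, 0 < η → η ≤ η₀ → Dv s b r K η := by
  obtain ⟨η₁, hη₁, H⟩ := S.neumann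
  obtain ⟨L, hL⟩ := S.pw
  have hr := S.hr
  have hK := S.hK
  have hrL : 0 < r ^ L := pow_pos hr L
  have hden : 0 < 2 * ((k : ℝ) * K + 1) := by positivity
  refine ⟨min η₁ (r ^ L / (2 * ((k : ℝ) * K + 1))), lt_min hη₁ (div_pos hrL hden),
    fun η hη hηle => ⟨S, hη, fun g M hg => ?_, L, ?_, hL⟩⟩
  · obtain ⟨C, hC, HC⟩ := H g M hg
    have hle : η ≤ η₁ := hηle.trans (min_le_left _ _)
    refine ⟨C, fun l => (hC l).anti hle, fun l => ((hC l).anti hle).1, fun y hy => ?_⟩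
    obtain ⟨G, hG, hx⟩ := HC y (ball_subset_ball hle hy)
    exact ⟨G, fun j => ⟨_, hG j⟩, hx⟩
  · have h1 : η ≤ r ^ L / (2 * ((k : ℝ) * K + 1)) := hηle.trans (min_le_right _ _)
    rw [le_div_iff₀ hden] at h1
    have hkK : 0 ≤ (k : ℝ) * K := by positivity
    nlinarith

section square

variable {s : Fin (m + 1) → (Fin (m + 1) → ℂ) → ℂ} {b : Fin d → (Fin (m + 1) → ℂ) → ℂ}
  {r K η : ℝ}

theorem Rep.uniq (B : Bas s b) (hr : 0 < r) (hη : 0 < η) {g : (Fin (m + 1) → ℂ) → ℂ}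
    {C C' : Fin d → (Fin (m + 1) → ℂ) → ℂ} (h : Rep s b r η g C) (h' : Rep s b r η g C')
    (l : Fin d) {y : Fin (m + 1) → ℂ} (hy : y ∈ ball (0 : Fin (m + 1) → ℂ) η) :
    C l y = C' l y := by
  have hCa : ∀ l, AnalyticOnNhd ℂ (C l) (ball 0 η) := fun l =>
    fun y hy => Vale.Agent.P097.Hol.analyticAt_of_differentiableOn isOpen_ball (h.hol l) hy
  have hCa' : ∀ l, AnalyticOnNhd ℂ (C' l) (ball 0 η) := fun l =>
    fun y hy => Vale.Agent.P097.Hol.analyticAt_of_differentiableOn isOpen_ball (h'.hol l) hy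
  have h0 : ∀ᶠ x in 𝓝 (0 : Fin (m + 1) → ℂ),
      ∑ l, (fun y => C l y - C' l y) (fun j => s j x) * b l x = 0 := by
    have hc : Tendsto (fun x => (fun j => s j x : Fin (m + 1) → ℂ)) (𝓝 0) (𝓝 0) := by
      have h1 : ContinuousAt (fun x => (fun j => s j x : Fin (m + 1) → ℂ)) 0 :=
        (AnalyticAt.pi B.hs).continuousAt
      have h2 : (fun j => s j 0 : Fin (m + 1) → ℂ) = 0 := by funext j; simp [B.hs0]
      have := h1.tendsto
      rwa [h2] at this
    filter_upwards [hc.eventually (ball_mem_nhds _ hη), ball_mem_nhds _ hr] with x hx hxr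
    obtain ⟨G, -, hG⟩ := h.eq _ hx
    obtain ⟨G', -, hG'⟩ := h'.eq _ hx
    have h1 := hG x hxr
    have h2 := hG' x hxr
    simp only [sub_self, zero_mul, Finset.sum_const_zero, add_zero] at h1 h2
    simp only [sub_mul, Finset.sum_sub_distrib]
    rw [← h1, ← h2, sub_self]
  have h1 := B.uniq (u := fun l y => C l y - C' l y)
    (fun l => (hCa l 0 (mem_ball_self hη)).sub (hCa' l 0 (mem_ball_self hη))) h0 l
  have h2 : (C l) =ᶠ[𝓝 0] (C' l) := by
    filter_upwards [h1] with y hy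
    exact sub_eq_zero.1 hy
  exact (hCa l).eqOn_of_preconnected_of_eventuallyEq (hCa' l)
    (convex_ball (0 : Fin (m + 1) → ℂ) η).isPreconnected (mem_ball_self hη) h2 hy

/-- The `b_l` are independent modulo (s - y). -/
theorem Dv.indep (D : Dv s b r K η) (B : Bas s b) {y : Fin (m + 1) → ℂ}
    (hy : y ∈ ball (0 : Fin (m + 1) → ℂ) η) {c : Fin d → ℂ}
    {G : Fin (m + 1) → (Fin (m + 1) → ℂ) → ℂ} (hG : ∀ j, ∃ M, Bh r M (G j))
    (h : ∀ x ∈ ball (0 : Fin (m + 1) → ℂ) r, ∑ l, c l * b l x = ∑ j, (s j x - y j) * G j x) :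
    c = 0 := by
  have hr := D.S.hr
  choose M hM using hG
  choose E hE hE' using fun j => D.N (G j) (M j) (hM j)
  have h1 : Rep s b r η (fun x => ∑ l, c l * b l x) (fun l _ => c l) := by
    refine ⟨fun l => differentiableOn_const _, fun y' _ => ⟨fun _ _ => 0, fun j => ⟨0, ?_⟩,
      fun x _ => by simp⟩⟩
    exact ⟨differentiableOn_const _, fun _ _ => by simp⟩
  have h2 : Rep s b r η (fun x => ∑ l, c l * b l x)
      (fun l y' => ∑ j, (y' j - y j) * E j l y') := by
    refine ⟨fun l => ?_, fun y' hy' => ?_⟩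
    · refine DifferentiableOn.fun_sum fun j _ => ?_
      exact ((differentiable_apply (𝕜 := ℂ) j).differentiableOn.sub_const _).mul (hE j l).1
    · choose F hF hF' using fun j => (hE' j).eq y' hy'
      choose N hN using hF
      refine ⟨fun i x => ∑ j, (y' j - y j) * F j i x + G i x, fun i => ?_, fun x hx => ?_⟩
      · exact ⟨_, (Bh.sum Finset.univ fun j _ => (hN j i).cmul (y' j - y j)).add (hM i)⟩
      · rw [h x hx]
        have h3 : ∀ j, (s j x - y j) * G j x =
            (y' j - y j) * (∑ l, E j l y' * b l x + ∑ i, (s i x - y' i) * F j i x) +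
              (s j x - y' j) * G j x := by
          intro j
          rw [← hF' j x hx]
          ring
        rw [Finset.sum_congr rfl fun j _ => h3 j]
        simp only [mul_add, Finset.sum_add_distrib, Finset.mul_sum, Finset.sum_mul]
        rw [Finset.sum_comm (s := (Finset.univ : Finset (Fin (m + 1))))
          (t := (Finset.univ : Finset (Fin d))), add_assoc]
        congr 1
        · exact Finset.sum_congr rfl fun l _ => Finset.sum_congr rfl fun j _ => by ring
        · congr 1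
          rw [Finset.sum_comm]
          exact Finset.sum_congr rfl fun l _ => Finset.sum_congr rfl fun j _ => by ring
  funext l
  have h3 := h1.uniq B hr D.hη h2 l hy
  simp only [sub_self, zero_mul, Finset.sum_const_zero] at h3
  exact h3

end square

end Vale.Agent.P298.H714
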