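import Vale.Agent.P298.H714.Split
import Vale.Agent.P272.GEO.Osgood

/-!
P298, row E1-LOW (helper714), part 2: limits of bounded holomorphic functions of several
variables.
-/

namespace Vale.Agent.P298.H714

open Filter Topology Metric Set Vale.Agent.P298

variable {n : ℕ}

theorem update_mem_ball {r : ℝ} {x : Fin n → ℂ} (hx : x ∈ ball (0 : Fin n → ℂ) r) (i : Fin n)
    {τ : ℂ} (hτ : ‖τ‖ < r) : Function.update x i τ ∈ ball (0 : Fin n → ℂ) r := by
  rw [mem_ball_zero_iff] at hx ⊢
  have hr : 0 < r := (norm_nonneg x).trans_lt hx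
  rw [pi_norm_lt_iff hr]
  intro j
  by_cases hj : j = i
  · subst hj; rwa [Function.update_self]
  · rw [Function.update_of_ne hj]; exact (norm_le_pi_norm x j).trans_lt hx

theorem norm_apply_lt {r : ℝ} {x : Fin n → ℂ} (hx : x ∈ ball (0 : Fin n → ℂ) r) (i : Fin n) :
    ‖x i‖ < r := (norm_le_pi_norm x i).trans_lt (mem_ball_zero_iff.1 hx)

theorem differentiable_update (x : Fin n → ℂ) (i : Fin n) :
    Differentiable ℂ (fun τ : ℂ => Function.update x i τ) := by
  rw [differentiable_pi]
  intro j
  by_cases hj : j = i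
  · subst hj; simp only [Function.update_self]; exact differentiable_id
  · simp only [Function.update_of_ne hj]; exact differentiable_const _

theorem exists_limit {r B : ℝ} (_hB : 0 ≤ B) {u : ℕ → (Fin n → ℂ) → ℂ}
    (hu : ∀ m, DifferentiableOn ℂ (u m) (ball 0 r)) (h0 : ∀ x, u 0 x = 0)
    (hd : ∀ m, ∀ x ∈ ball (0 : Fin n → ℂ) r, ‖u (m + 1) x - u m x‖ ≤ B * (1 / 2) ^ m) :
    ∃ v : (Fin n → ℂ) → ℂ, Bh r (2 * B) v ∧
      ∀ x ∈ ball (0 : Fin n → ℂ) r, Tendsto (fun m => u m x) atTop (𝓝 (v x)) := by
  have hsum : Summable fun m : ℕ => B * (1 / 2 : ℝ) ^ m :=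
    (summable_geometric_of_lt_one (by norm_num) (by norm_num)).mul_left B
  have htot : ∑' m : ℕ, B * (1 / 2 : ℝ) ^ m = 2 * B := by
    rw [tsum_mul_left, tsum_geometric_of_lt_one (by norm_num) (by norm_num)]
    ring
  have hsummable : ∀ x ∈ ball (0 : Fin n → ℂ) r, Summable fun m => u (m + 1) x - u m x :=
    fun x hx => Summable.of_norm_bounded hsum fun m => hd m x hx
  refine ⟨fun x => ∑' m, (u (m + 1) x - u m x), ⟨?_, fun x hx => ?_⟩, fun x hx => ?_⟩
  · apply Vale.Agent.P272.GEO.osgood isOpen_ball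
    · refine continuousOn_tsum (fun m => ?_) hsum fun m x hx => hd m x hx
      exact ((hu (m + 1)).sub (hu m)).continuousOn
    · intro x hx i
      have hU : IsOpen (ball (0 : ℂ) r) := isOpen_ball
      have hd1 : DifferentiableOn ℂ (fun τ : ℂ => ∑' m, (u (m + 1) (Function.update x i τ) -
          u m (Function.update x i τ))) (ball (0 : ℂ) r) := by
        refine Complex.differentiableOn_tsum_of_summable_norm hsum (fun m => ?_) hU
          fun m τ hτ => hd m _ (update_mem_ball hx i (by simpa using hτ))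
        exact ((hu (m + 1)).sub (hu m)).comp (differentiable_update x i).differentiableOn
          fun τ hτ => update_mem_ball hx i (by simpa using hτ)
      exact hd1.differentiableAt (hU.mem_nhds (by simpa using norm_apply_lt hx i))
  · rw [← htot]
    exact tsum_of_norm_bounded hsum.hasSum fun m => hd m x hx
  · have h1 := (hsummable x hx).hasSum.tendsto_sum_nat
    refine h1.congr fun m => ?_
    rw [Finset.sum_range_sub (fun m => u m x), h0, sub_zero]

end Vale.Agent.P298.H714
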