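import Vale.Agent.P298.H714.Trc

/-!
P298, row E1-LOW (helper714), part 17: the lower bound for the colength of `I_N`.
-/

namespace Vale.Agent.P298.H714

open Filter Topology Metric Set MeasureTheory Vale.Agent.P298 Module
open Vale.Agent.P298.H967 (IK mem_IK inI_mem_IK nul_le_IK self_mem_IK inI_pow inI_mono)
open Vale.Agent.P298.H379 (InI Nloc nu pt)
open scoped ENNReal NNReal

variable {d : ℕ} {f e e' : (Fin 3 → ℂ) → ℂ} {b : Fin d → (Fin 3 → ℂ) → ℂ} {r K η : ℝ}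

/-- the sum over the fibre in the area formula -/
noncomputable def Wf (f e e' : (Fin 3 → ℂ) → ℂ) (Ω : Set (Fin 3 → ℂ))
    (φ : (Fin 3 → ℂ) → ℝ≥0∞) (q : ℂ × ℂ) : ℝ≥0∞ :=
  ∑' x : {x : Fin 3 → ℂ // x ∈ Ω ∧ f x = 0 ∧ e x = q.1 ∧ e' x = q.2 ∧ pd 2 f x ≠ 0 ∧
    jac3 f e e' x ≠ 0}, φ x / ‖jac3 f e e' x‖ₑ ^ 2

theorem le_Wf {Ω : Set (Fin 3 → ℂ)} {φ : (Fin 3 → ℂ) → ℝ≥0∞} {q : ℂ × ℂ} {x : Fin 3 → ℂ}
    (hx : x ∈ Ω) (h0 : f x = 0) (h1 : e x = q.1) (h2 : e' x = q.2) (h3 : pd 2 f x ≠ 0)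
    (h4 : jac3 f e e' x ≠ 0) : φ x / ‖jac3 f e e' x‖ₑ ^ 2 ≤ Wf f e e' Ω φ q :=
  ENNReal.le_tsum (f := fun x : {x : Fin 3 → ℂ // x ∈ Ω ∧ f x = 0 ∧ e x = q.1 ∧ e' x = q.2 ∧
    pd 2 f x ≠ 0 ∧ jac3 f e e' x ≠ 0} => φ x / ‖jac3 f e e' x‖ₑ ^ 2)
    ⟨x, hx, h0, h1, h2, h3, h4⟩

/-- the integral over the surface, from below -/
theorem lint_Wf_le {ρ : ℝ} (hf : DifferentiableOn ℂ f (ball 0 ρ))
    (he : DifferentiableOn ℂ e (ball 0 ρ)) (he' : DifferentiableOn ℂ e' (ball 0 ρ))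
    {h : (Fin 3 → ℂ) → ℂ} (hh : ContinuousOn h (ball 0 ρ)) (k : ℝ) :
    ∫⁻ q, Wf f e e' (ball 0 ρ) ((ball (0 : Fin 3 → ℂ) ρ).indicator fun x => ‖h x‖ₑ ^ (2 / k)) q ≤
      Nloc f ρ k h := by
  set φ : (Fin 3 → ℂ) → ℝ≥0∞ :=
    (ball (0 : Fin 3 → ℂ) ρ).indicator fun x => ‖h x‖ₑ ^ (2 / k) with hφ
  have hφm : Measurable φ :=
    H967.measurable_ind hh (F := fun z : ℂ => ‖z‖ₑ ^ (2 / k)) (measurable_enorm.pow_const _)
  have hJm : Measurable fun x => ‖jac3 f e e' x‖ₑ ^ 2 :=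
    (H373.measurable_jac3 f e e').enorm.pow_const 2
  have h1 := H373.areaII (ball (0 : Fin 3 → ℂ) ρ) f e e' 0
    (fun x => φ x / ‖jac3 f e e' x‖ₑ ^ 2) isOpen_ball hf he he' (hφm.div hJm)
    (fun x hx => by
      rw [hφ, indicator_of_notMem hx, ENNReal.zero_div])
  calc ∫⁻ q, Wf f e e' (ball 0 ρ) φ q
      = nu f 0 (fun x => ‖jac3 f e e' x‖ₑ ^ 2 * (φ x / ‖jac3 f e e' x‖ₑ ^ 2)) := h1.symm
    _ ≤ nu f 0 φ := H967.nu_mono fun x _ _ => ENNReal.mul_div_le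
    _ = Nloc f ρ k h := rfl

/-! ### polynomials -/

/-- monomials of degree less than `n` -/
abbrev Mn (n : ℕ) : Type := Σ k : Fin n, Fin ((k : ℕ) + 1)

/-- the exponents -/
noncomputable def ex {n : ℕ} (i : Mn n) : Fin 2 →₀ ℕ :=
  Finsupp.single 0 (i.2 : ℕ) + Finsupp.single 1 ((i.1 : ℕ) - (i.2 : ℕ))

theorem ex_zero {n : ℕ} (i : Mn n) : ex i 0 = (i.2 : ℕ) := by simp [ex]

theorem ex_one {n : ℕ} (i : Mn n) : ex i 1 = (i.1 : ℕ) - (i.2 : ℕ) := by simp [ex]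

theorem ex_injective {n : ℕ} : Function.Injective (ex : Mn n → (Fin 2 →₀ ℕ)) := by
  rintro ⟨k, j⟩ ⟨k', j'⟩ h
  have h0 := DFunLike.congr_fun h 0
  have h1 := DFunLike.congr_fun h 1
  rw [ex_zero, ex_zero] at h0
  rw [ex_one, ex_one] at h1
  simp only at h0 h1
  have hj := j.2
  have hj' := j'.2
  have hk : (k : ℕ) = k' := by omega
  have hk' : k = k' := Fin.ext hk
  subst hk'
  have : j = j' := Fin.ext h0
  rw [this]

theorem degree_ex {n : ℕ} (i : Mn n) : (ex i).degree = (i.1 : ℕ) := by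
  rw [Finsupp.degree_eq_sum, Fin.sum_univ_two, ex_zero, ex_one]
  have := i.2.2
  omega

/-- the polynomial with coefficients `c` -/
noncomputable def pol {n : ℕ} (c : Mn n → ℂ) : MvPolynomial (Fin 2) ℂ :=
  ∑ i, MvPolynomial.monomial (ex i) (c i)

theorem coeff_pol {n : ℕ} (c : Mn n → ℂ) (i : Mn n) :
    MvPolynomial.coeff (ex i) (pol c) = c i := by
  classical
  rw [pol, MvPolynomial.coeff_sum, Finset.sum_eq_single i]
  · rw [MvPolynomial.coeff_monomial, if_pos rfl]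
  · intro j _ hj
    rw [MvPolynomial.coeff_monomial, if_neg (fun h => hj (ex_injective h))]
  · intro h; exact absurd (Finset.mem_univ i) h

theorem degree_lt_of_mem {n : ℕ} (c : Mn n → ℂ) {u : Fin 2 →₀ ℕ} (hu : u ∈ (pol c).support) :
    u.degree < n := by
  classical
  rw [MvPolynomial.mem_support_iff, pol, MvPolynomial.coeff_sum] at hu
  obtain ⟨i, -, hi⟩ := Finset.exists_ne_zero_of_sum_ne_zero hu
  rw [MvPolynomial.coeff_monomial] at hi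
  have h1 : ex i = u := by
    by_contra h
    rw [if_neg h] at hi
    exact hi rfl
  rw [← h1, degree_ex]
  exact i.1.2

theorem eval_pol {n : ℕ} (c : Mn n → ℂ) (v : Fin 2 → ℂ) :
    MvPolynomial.eval v (pol c) =
      ∑ i : Mn n, c i * (v 0 ^ (i.2 : ℕ) * v 1 ^ ((i.1 : ℕ) - (i.2 : ℕ))) := by
  rw [pol, map_sum]
  refine Finset.sum_congr rfl fun i _ => ?_
  rw [MvPolynomial.eval_monomial, Finsupp.prod_fintype _ _ (fun _ => pow_zero _),
    Fin.prod_univ_two, ex_zero, ex_one]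

theorem card_Mn (n : ℕ) : ((n : ℝ) ^ 2) / 2 ≤ (Fintype.card (Mn n) : ℝ) := by
  rw [Fintype.card_sigma]
  simp only [Fintype.card_fin]
  rw [Fin.sum_univ_eq_sum_range (fun k => k + 1) n]
  induction n with
  | zero => simp
  | succ n ih =>
    rw [Finset.sum_range_succ]
    push_cast at ih ⊢
    have h0 : (0 : ℝ) ≤ n := Nat.cast_nonneg n
    nlinarith

/-! ### the main step -/

/-- The key inequality: a combination of the `b_l` with coefficients polynomials in `e, e'`,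
which is in `I_N`, has coefficients of large order. -/
theorem ord_gt (S : Set3 f e e' b r K η) {T : Fin d → Fin d → (Fin 2 → ℂ) → ℂ}
    (HT : Tr f e e' b r η T) {a : ℕ} (ha : Ord (Tr.D T) a)
    {m₂ : Fin d → Fin d → (Fin 3 → ℂ) → ℂ} (M₂ : Mt f e e' b r η (pd 2 f) m₂) {a₂ : ℕ}
    (ha₂ : Ord (fun v => (Matrix.of fun l k => m₂ l k (par v)).det) a₂) {m C : ℝ} (hm : 0 < m)
    (hJ : ∀ x ∈ ball (0 : Fin 3 → ℂ) r, f x = 0 →
      ‖jac3 f e e' x‖ ≤ C * (max ‖e x‖ ‖e' x‖) ^ (2 + 1 / m)) {N : ℝ} (hN : 0 < N)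
    {u : Fin d → (Fin 2 → ℂ) → ℂ} {ν : ℕ} {l : Fin d} (hν : Ord (u l) ν)
    (hcont : ContinuousOn (fun x => ∑ k, u k ![e x, e' x] * b k x) (ball (0 : Fin 3 → ℂ) r))
    (hI : InI f N (fun x => ∑ k, u k ![e x, e' x] * b k x)) :
    N / m < a + ν := by
  by_contra hcon
  push Not at hcon
  obtain ⟨-, ρ, hρ, hfin⟩ := hI
  have hr := S.D.S.hr
  have hη := S.D.hη
  set h : (Fin 3 → ℂ) → ℂ := fun x => ∑ k, u k ![e x, e' x] * b k x with hh
  set ρ' : ℝ := min ρ r with hρ'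
  have hρ'0 : 0 < ρ' := lt_min hρ hr
  have hsub : ball (0 : Fin 3 → ℂ) ρ' ⊆ ball 0 r := ball_subset_ball (min_le_right _ _)
  have hW := lint_Wf_le (S.hf.1.mono hsub) (S.he.1.mono hsub) (S.he'.1.mono hsub)
    (hcont.mono hsub) N
  have hfin' : Nloc f ρ' N h < ∞ := (H967.Nloc_anti (min_le_left _ _)).trans_lt hfin
  obtain ⟨C₂, hC₂, δ, hδ, hδη, Hlow⟩ := HT.lower S
  obtain ⟨δ', hδ', Hsm⟩ := S.small hρ'0
  -- the constants
  set C' : ℝ := |C| + 1 with hC'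
  have hC'0 : 0 < C' := by positivity
  have hd : 0 < (d : ℝ) := by
    have : 0 < d := Nat.pos_of_ne_zero fun h0 => by subst h0; exact l.elim0
    exact_mod_cast this
  set p : ℝ := 2 / N with hp
  have hp0 : 0 < p := by positivity
  set β : ℝ := 4 + 2 / m with hβ
  set c : ℝ := (1 / (C₂ * d)) ^ p / C' ^ 2 with hc
  have hc0 : 0 < c := by positivity
  have key := int_top (ha.mul hν) ha₂ (p := p) (β := β) (c := c) (ρ := min δ δ') hp0.le hc0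
    (lt_min hδ hδ') (by
      have h1 : p * ((a + ν : ℕ) : ℝ) ≤ 2 / m := by
        push_cast
        rw [hp, div_mul_eq_mul_div, div_le_div_iff₀ hN hm]
        have h2 : ((a : ℝ) + ν) * m ≤ N := by
          rwa [le_div_iff₀ hm] at hcon
        linarith
      rw [hβ]; linarith)
    (W := Wf f e e' (ball 0 ρ') ((ball (0 : Fin 3 → ℂ) ρ').indicator fun x => ‖h x‖ₑ ^ (2 / N)))
    ?_
  · rw [key] at hW
    exact absurd (hW.trans_lt hfin') (lt_irrefl _)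
  · filter_upwards [S.ae_pts] with q hq hq0 hqρ hG
    have hqδ : ‖q‖ < δ := hqρ.trans_le (min_le_left _ _)
    have hqδ' : ‖q‖ < δ' := hqρ.trans_le (min_le_right _ _)
    have hqη : ‖q‖ < η := hqδ.trans_le hδη
    obtain ⟨x, P⟩ := hq.2 hqη
    have hlow := Hlow q x hqδ P (fun k => u k ![q.1, q.2]) l
    have hhx : ∀ i, ∑ k, u k ![q.1, q.2] * b k (x i) = h (x i) := by
      intro i
      rw [hh]
      simp only
      rw [P.he i, P.he' i]
    simp only [hhx] at hlow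
    -- a point with a large value
    obtain ⟨i, hi⟩ : ∃ i, ‖Tr.D T ![q.1, q.2] * u l ![q.1, q.2]‖ ≤ C₂ * d * ‖h (x i)‖ := by
      by_contra hcon2
      push Not at hcon2
      have h1 : ∑ i : Fin d, C₂ * d * ‖h (x i)‖ <
          ∑ _i : Fin d, ‖Tr.D T ![q.1, q.2] * u l ![q.1, q.2]‖ :=
        Finset.sum_lt_sum_of_nonempty ⟨l, Finset.mem_univ l⟩ fun i _ => hcon2 i
      rw [Finset.sum_const, Finset.card_univ, Fintype.card_fin, nsmul_eq_mul, ← Finset.mul_sum] at h1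
      rw [norm_mul] at h1
      have h2 : C₂ * d * ∑ i, ‖h (x i)‖ < d * (C₂ * ∑ i, ‖h (x i)‖) :=
        h1.trans_le (mul_le_mul_of_nonneg_left hlow hd.le)
      have h3 : C₂ * d * ∑ i, ‖h (x i)‖ = d * (C₂ * ∑ i, ‖h (x i)‖) := by ring
      exact absurd h2 (by rw [h3]; exact lt_irrefl _)
    have hpd : pd 2 f (x i) ≠ 0 := by
      rw [show (Matrix.of fun l k => m₂ l k (par ![q.1, q.2])).det = ∏ i, pd 2 f (x i) from
        M₂.det_eq hqη P] at hG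
      exact fun h0 => hG (Finset.prod_eq_zero (Finset.mem_univ i) h0)
    have hxρ : x i ∈ ball (0 : Fin 3 → ℂ) ρ' := by
      refine Hsm _ (P.mem i) (P.hf i) ?_ ?_
      · rw [P.he i]; exact (norm_fst_le q).trans_lt hqδ'
      · rw [P.he' i]; exact (norm_snd_le q).trans_lt hqδ'
    refine le_trans ?_ (le_Wf hxρ (P.hf i) (P.he i) (P.he' i) hpd (P.jac i))
    rw [indicator_of_mem hxρ]
    have hJpos : 0 < ‖jac3 f e e' (x i)‖ := norm_pos_iff.2 (P.jac i)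
    have hqpos : 0 < ‖q‖ := norm_pos_iff.2 hq0
    have hJx : ‖jac3 f e e' (x i)‖ ≤ C' * ‖q‖ ^ (2 + 1 / m) := by
      refine (hJ _ (P.mem i) (P.hf i)).trans ?_
      rw [P.he i, P.he' i, ← Prod.norm_def]
      refine mul_le_mul_of_nonneg_right ?_ (by positivity)
      rw [hC']
      linarith [le_abs_self C]
    have e1 : ‖h (x i)‖ₑ ^ (2 / N) / ‖jac3 f e e' (x i)‖ₑ ^ 2 =
        ENNReal.ofReal (‖h (x i)‖ ^ p / ‖jac3 f e e' (x i)‖ ^ 2) := by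
      rw [ENNReal.ofReal_div_of_pos (by positivity), ← ofReal_norm, ← ofReal_norm,
        ENNReal.ofReal_rpow_of_nonneg (norm_nonneg _) hp0.le,
        ENNReal.ofReal_pow (norm_nonneg _)]
    rw [e1]
    refine ENNReal.ofReal_le_ofReal ?_
    rw [le_div_iff₀ (by positivity)]
    have e2 : ‖jac3 f e e' (x i)‖ ^ 2 ≤ C' ^ 2 * ‖q‖ ^ β := by
      calc ‖jac3 f e e' (x i)‖ ^ 2 ≤ (C' * ‖q‖ ^ (2 + 1 / m)) ^ 2 :=
            pow_le_pow_left₀ hJpos.le hJx 2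
        _ = C' ^ 2 * ‖q‖ ^ β := by
            rw [mul_pow, ← Real.rpow_natCast (‖q‖ ^ (2 + 1 / m)) 2, ← Real.rpow_mul hqpos.le, hβ]
            congr 2
            push_cast
            ring
    have e3 : (1 / (C₂ * d)) ^ p * ‖Tr.D T ![q.1, q.2] * u l ![q.1, q.2]‖ ^ p ≤
        ‖h (x i)‖ ^ p := by
      rw [← Real.mul_rpow (by positivity) (norm_nonneg _)]
      refine Real.rpow_le_rpow (by positivity) ?_ hp0.le
      rw [one_div, inv_mul_le_iff₀ (by positivity)]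
      exact hi
    calc c * ‖Tr.D T ![q.1, q.2] * u l ![q.1, q.2]‖ ^ p * ‖q‖ ^ (-β) *
          ‖jac3 f e e' (x i)‖ ^ 2
        ≤ c * ‖Tr.D T ![q.1, q.2] * u l ![q.1, q.2]‖ ^ p * ‖q‖ ^ (-β) *
          (C' ^ 2 * ‖q‖ ^ β) := mul_le_mul_of_nonneg_left e2 (by positivity)
      _ = (1 / (C₂ * d)) ^ p * ‖Tr.D T ![q.1, q.2] * u l ![q.1, q.2]‖ ^ p *
          (‖q‖ ^ (-β) * ‖q‖ ^ β) := by
          rw [hc]; field_simp
      _ = (1 / (C₂ * d)) ^ p * ‖Tr.D T ![q.1, q.2] * u l ![q.1, q.2]‖ ^ p := by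
          rw [← Real.rpow_add hqpos, neg_add_cancel, Real.rpow_zero, mul_one]
      _ ≤ ‖h (x i)‖ ^ p := e3

end Vale.Agent.P298.H714
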