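import Vale.Agent.P298.H714.Spl

/-!
P298, row E1-LOW (helper714), part 5: Neumann series. Division by the ideal
(s_j - y_j) with coefficients holomorphic in `y`.
-/

namespace Vale.Agent.P298.H714

open Filter Topology Metric Set Vale.Agent.P298

variable {n k d : ℕ} {s : Fin k → (Fin n → ℂ) → ℂ} {b : Fin d → (Fin n → ℂ) → ℂ} {r K : ℝ}

/-- bounded functions with a bound -/
abbrev XB (n : ℕ) (r : ℝ) : Type :=
  {p : ((Fin n → ℂ) → ℂ) × ℝ // Bh r p.2 p.1}

/-- a choice of the division operators -/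
structure Ops (s : Fin k → (Fin n → ℂ) → ℂ) (b : Fin d → (Fin n → ℂ) → ℂ) (r K : ℝ) where
  c : XB n r → Fin d → ℂ
  A : XB n r → Fin k → XB n r
  hc : ∀ p l, ‖c p l‖ ≤ K * p.1.2
  hA : ∀ p j, (A p j).1.2 = K * p.1.2
  id : ∀ p, ∀ x ∈ ball (0 : Fin n → ℂ) r,
    p.1.1 x = ∑ l, c p l * b l x + ∑ j, s j x * (A p j).1.1 x

theorem Spl.exists_ops (S : Spl s b r K) : Nonempty (Ops s b r K) := by
  choose c a hc ha hx using fun p : XB n r => S.split p.1.1 p.1.2 p.2
  exact ⟨⟨c, fun p j => ⟨(a p j, K * p.1.2), ha p j⟩, hc, fun _ _ => rfl, hx⟩⟩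

namespace Ops

variable (O : Ops s b r K)

/-- finite sums of the coefficients -/
noncomputable def F : ℕ → XB n r → (Fin k → ℂ) → Fin d → ℂ
  | 0, _, _, _ => 0
  | m + 1, p, y, l => O.c p l + ∑ j, y j * F m (O.A p j) y l

/-- finite sums of the cofactors -/
noncomputable def G : ℕ → XB n r → (Fin k → ℂ) → Fin k → (Fin n → ℂ) → ℂ
  | 0, _, _, _, _ => 0
  | m + 1, p, y, j, x => (O.A p j).1.1 x + ∑ i, y i * G m (O.A p i) y j x

/-- the remainders -/
noncomputable def R : ℕ → XB n r → (Fin k → ℂ) → (Fin n → ℂ) → ℂ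
  | 0, p, _, x => p.1.1 x
  | m + 1, p, y, x => ∑ i, y i * R m (O.A p i) y x

theorem identity (m : ℕ) : ∀ (p : XB n r) (y : Fin k → ℂ), ∀ x ∈ ball (0 : Fin n → ℂ) r,
    p.1.1 x = ∑ l, O.F m p y l * b l x + ∑ j, (s j x - y j) * O.G m p y j x + O.R m p y x := by
  induction m with
  | zero => intro p y x _; simp [F, G, R]
  | succ m ih =>
    intro p y x hx
    have h1 := O.id p x hx
    have h2 : ∀ i, (O.A p i).1.1 x = ∑ l, O.F m (O.A p i) y l * b l x +
      ∑ j, (s j x - y j) * O.G m (O.A p i) y j x + O.R m (O.A p i) y x :=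
      fun i => ih (O.A p i) y x hx
    have h3 : ∑ i, y i * (O.A p i).1.1 x = ∑ l, (∑ i, y i * O.F m (O.A p i) y l) * b l x +
        ∑ j, (s j x - y j) * (∑ i, y i * O.G m (O.A p i) y j x) +
        ∑ i, y i * O.R m (O.A p i) y x := by
      rw [Finset.sum_congr rfl fun i _ => by rw [h2 i]]
      simp only [mul_add, Finset.sum_add_distrib, Finset.mul_sum, Finset.sum_mul]
      rw [Finset.sum_comm (s := (Finset.univ : Finset (Fin k))) (t := (Finset.univ : Finset (Fin d))),
        Finset.sum_comm (f := fun i j => y i * ((s j x - y j) * O.G m (O.A p i) y j x))]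
      congr 1
      congr 1
      · exact Finset.sum_congr rfl fun l _ => Finset.sum_congr rfl fun i _ => by ring
      · exact Finset.sum_congr rfl fun j _ => Finset.sum_congr rfl fun i _ => by ring
    have h4 : ∑ j, s j x * (O.A p j).1.1 x = ∑ j, (s j x - y j) * (O.A p j).1.1 x +
        ∑ j, y j * (O.A p j).1.1 x := by
      rw [← Finset.sum_add_distrib]
      exact Finset.sum_congr rfl fun j _ => by ring
    rw [h4, h3] at h1
    simp only [F, G, R]
    simp only [add_mul, mul_add, Finset.sum_add_distrib] at h1 ⊢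
    rw [h1]
    ring

theorem F_diff (m : ℕ) : ∀ (p : XB n r) (l : Fin d), Differentiable ℂ (fun y => O.F m p y l) := by
  induction m with
  | zero => intro p l; exact differentiable_const _
  | succ m ih =>
    intro p l
    have h1 : Differentiable ℂ (fun y : Fin k → ℂ => ∑ j, y j * O.F m (O.A p j) y l) :=
      Differentiable.fun_sum fun j _ => (differentiable_apply j).mul (ih _ l)
    exact (differentiable_const _).add h1

theorem G_diff (m : ℕ) (y : Fin k → ℂ) : ∀ (p : XB n r) (j : Fin k),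
    DifferentiableOn ℂ (O.G m p y j) (ball 0 r) := by
  induction m with
  | zero => intro p l; exact differentiableOn_const _
  | succ m ih =>
    intro p j
    have h1 : DifferentiableOn ℂ (fun x => ∑ i, y i * O.G m (O.A p i) y j x) (ball 0 r) :=
      DifferentiableOn.fun_sum fun i _ => (ih _ j).const_mul _
    exact (O.A p j).2.1.add h1

theorem sum_bound {η : ℝ} {N : ℝ} (hN : 0 ≤ N) (hη : (k : ℝ) * K * η ≤ 1 / 2) {y : Fin k → ℂ}
    (hy : ‖y‖ ≤ η) {t : Fin k → ℂ} (ht : ∀ i, ‖t i‖ ≤ K * N) :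
    ‖∑ i, y i * t i‖ ≤ N * (1 / 2) := by
  have h1 : ∀ i, ‖y i * t i‖ ≤ η * (K * N) := by
    intro i
    rw [norm_mul]
    exact mul_le_mul ((norm_le_pi_norm y i).trans hy) (ht i) (norm_nonneg _)
      ((norm_nonneg _).trans hy)
  calc ‖∑ i, y i * t i‖ ≤ ∑ i, ‖y i * t i‖ := norm_sum_le _ _
    _ ≤ ∑ _i : Fin k, η * (K * N) := Finset.sum_le_sum fun i _ => h1 i
    _ = ((k : ℝ) * K * η) * N := by simp; ring
    _ ≤ (1 / 2) * N := mul_le_mul_of_nonneg_right hη hN
    _ = N * (1 / 2) := by ring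

theorem F_bound (hr : 0 < r) (hK : 0 ≤ K) {η : ℝ} (hη : (k : ℝ) * K * η ≤ 1 / 2) {y : Fin k → ℂ}
    (hy : ‖y‖ ≤ η) (m : ℕ) : ∀ (p : XB n r) (l : Fin d),
    ‖O.F (m + 1) p y l - O.F m p y l‖ ≤ K * p.1.2 * (1 / 2) ^ m := by
  induction m with
  | zero =>
    intro p l
    simp only [F, mul_zero, Finset.sum_const_zero, add_zero, sub_zero, pow_zero, mul_one]
    exact O.hc p l
  | succ m ih =>
    intro p l
    have hM := p.2.nonneg hr
    have h1 : O.F (m + 1 + 1) p y l - O.F (m + 1) p y l =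
        ∑ j, y j * (O.F (m + 1) (O.A p j) y l - O.F m (O.A p j) y l) := by
      conv_lhs => rw [F]
      rw [F]
      simp only [mul_sub, Finset.sum_sub_distrib]
      ring
    rw [h1, pow_succ, ← mul_assoc]
    refine sum_bound (K := K) (by positivity) hη hy fun i => ?_
    refine (ih (O.A p i) l).trans_eq ?_
    rw [O.hA]; ring

theorem G_bound (hr : 0 < r) (hK : 0 ≤ K) {η : ℝ} (hη : (k : ℝ) * K * η ≤ 1 / 2) {y : Fin k → ℂ}
    (hy : ‖y‖ ≤ η) (m : ℕ) : ∀ (p : XB n r) (j : Fin k), ∀ x ∈ ball (0 : Fin n → ℂ) r,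
    ‖O.G (m + 1) p y j x - O.G m p y j x‖ ≤ K * p.1.2 * (1 / 2) ^ m := by
  induction m with
  | zero =>
    intro p j x hx
    simp only [G, mul_zero, Finset.sum_const_zero, add_zero, sub_zero, pow_zero, mul_one]
    rw [← O.hA p j]
    exact (O.A p j).2.2 x hx
  | succ m ih =>
    intro p j x hx
    have hM := p.2.nonneg hr
    have h1 : O.G (m + 1 + 1) p y j x - O.G (m + 1) p y j x =
        ∑ i, y i * (O.G (m + 1) (O.A p i) y j x - O.G m (O.A p i) y j x) := by
      conv_lhs => rw [G]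
      rw [G]
      simp only [mul_sub, Finset.sum_sub_distrib]
      ring
    rw [h1, pow_succ, ← mul_assoc]
    refine sum_bound (K := K) (by positivity) hη hy fun i => ?_
    refine (ih (O.A p i) j x hx).trans_eq ?_
    rw [O.hA]; ring

theorem R_bound (hr : 0 < r) (hK : 0 ≤ K) {η : ℝ} (hη : (k : ℝ) * K * η ≤ 1 / 2) {y : Fin k → ℂ}
    (hy : ‖y‖ ≤ η) (m : ℕ) : ∀ (p : XB n r), ∀ x ∈ ball (0 : Fin n → ℂ) r,
    ‖O.R m p y x‖ ≤ p.1.2 * (1 / 2) ^ m := by
  induction m with
  | zero => intro p x hx; simpa [R] using p.2.2 x hx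
  | succ m ih =>
    intro p x hx
    have hM := p.2.nonneg hr
    rw [R, pow_succ, ← mul_assoc]
    refine sum_bound (K := K) (by positivity) hη hy fun i => ?_
    refine (ih (O.A p i) x hx).trans_eq ?_
    rw [O.hA]; ring

end Ops

/-- Division by (s_j - y_j) with coefficients holomorphic in `y`. -/
theorem Spl.neumann (S : Spl s b r K) : ∃ η > 0, ∀ (g : (Fin n → ℂ) → ℂ) (M : ℝ), Bh r M g →
    ∃ C : Fin d → (Fin k → ℂ) → ℂ, (∀ l, Bh η (2 * K * M) (C l)) ∧
      ∀ y ∈ ball (0 : Fin k → ℂ) η, ∃ G : Fin k → (Fin n → ℂ) → ℂ,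
        (∀ j, Bh r (2 * K * M) (G j)) ∧ ∀ x ∈ ball (0 : Fin n → ℂ) r,
          g x = ∑ l, C l y * b l x + ∑ j, (s j x - y j) * G j x := by
  obtain ⟨O⟩ := S.exists_ops
  have hK := S.hK
  have hr := S.hr
  set η : ℝ := 1 / (2 * ((k : ℝ) * K + 1)) with hηd
  have hkK : 0 ≤ (k : ℝ) * K := by positivity
  have hη0 : 0 < η := by positivity
  have hη : (k : ℝ) * K * η ≤ 1 / 2 := by
    rw [hηd, mul_one_div, div_le_div_iff₀ (by positivity) (by norm_num)]
    linarith
  refine ⟨η, hη0, fun g M hg => ?_⟩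
  have hM := hg.nonneg hr
  set p : XB n r := ⟨(g, M), hg⟩ with hp
  have hpM : p.1.2 = M := rfl
  have h1 : ∀ l, ∃ v : (Fin k → ℂ) → ℂ, Bh η (2 * (K * M)) v ∧
      ∀ y ∈ ball (0 : Fin k → ℂ) η, Tendsto (fun m => O.F m p y l) atTop (𝓝 (v y)) := by
    intro l
    refine exists_limit (u := fun m y => O.F m p y l) (by positivity)
      (fun m => (O.F_diff m p l).differentiableOn) (fun y => rfl) fun m y hy => ?_
    have := O.F_bound hr hK hη (mem_ball_zero_iff.1 hy).le m p l
    rwa [hpM] at this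
  choose C hC hClim using h1
  refine ⟨C, fun l => (hC l).mono (by rw [mul_assoc]), fun y hy => ?_⟩
  have hy' := (mem_ball_zero_iff.1 hy).le
  have h2 : ∀ j, ∃ v : (Fin n → ℂ) → ℂ, Bh r (2 * (K * M)) v ∧
      ∀ x ∈ ball (0 : Fin n → ℂ) r, Tendsto (fun m => O.G m p y j x) atTop (𝓝 (v x)) := by
    intro j
    refine exists_limit (u := fun m => O.G m p y j) (by positivity)
      (fun m => O.G_diff m y p j) (fun x => rfl) fun m x hx => ?_
    have := O.G_bound hr hK hη hy' m p j x hx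
    rwa [hpM] at this
  choose G hG hGlim using h2
  refine ⟨G, fun j => (hG j).mono (by rw [mul_assoc]), fun x hx => ?_⟩
  have hR : Tendsto (fun m => O.R m p y x) atTop (𝓝 0) := by
    rw [tendsto_zero_iff_norm_tendsto_zero]
    have hlim : Tendsto (fun m : ℕ => M * (1 / 2 : ℝ) ^ m) atTop (𝓝 (M * 0)) :=
      (tendsto_pow_atTop_nhds_zero_of_lt_one (by norm_num) (by norm_num)).const_mul M
    rw [mul_zero] at hlim
    refine squeeze_zero (fun m => norm_nonneg _) (fun m => ?_) hlim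
    exact O.R_bound hr hK hη hy' m p x hx
  have hlim : Tendsto (fun m => ∑ l, O.F m p y l * b l x + ∑ j, (s j x - y j) * O.G m p y j x +
      O.R m p y x) atTop (𝓝 (∑ l, C l y * b l x + ∑ j, (s j x - y j) * G j x + 0)) := by
    refine (Tendsto.add ?_ ?_).add hR
    · exact tendsto_finsetSum _ fun l _ => (hClim l y hy).mul_const _
    · exact tendsto_finsetSum _ fun j _ => (hGlim j x hx).const_mul _
  rw [add_zero] at hlim
  refine tendsto_nhds_unique tendsto_const_nhds (hlim.congr fun m => ?_)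
  exact (O.identity m p y x hx).symm

end Vale.Agent.P298.H714
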