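import Vale.Agent.P298.H714.Kap

/-!
P298, row E1-LOW (helper714), part 10: a function which vanishes at the solutions of `s = y`, all
of them simple, belongs to the ideal (s - y) of bounded holomorphic functions.
-/

namespace Vale.Agent.P298.H714

open Filter Topology Metric Set Vale.Agent.P298

variable {n k m d : ℕ}

/-- bounded holomorphic functions on the polydisc of radius `r` -/
def Rb (n : ℕ) (r : ℝ) : Subalgebra ℂ ((Fin n → ℂ) → ℂ) where
  carrier := {g | ∃ M, Bh r M g}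
  mul_mem' := fun ⟨_, hf⟩ ⟨_, hg⟩ => ⟨_, hf.mul hg⟩
  add_mem' := fun ⟨_, hf⟩ ⟨_, hg⟩ => ⟨_, hf.add hg⟩
  algebraMap_mem' := fun c => ⟨_, Bh.const c⟩

theorem mem_Rb {r : ℝ} {g : (Fin n → ℂ) → ℂ} : g ∈ Rb n r ↔ ∃ M, Bh r M g := Iff.rfl

/-- the ideal (s - y) -/
def aI (s : Fin k → (Fin n → ℂ) → ℂ) (r : ℝ) (y : Fin k → ℂ) : Ideal (Rb n r) where
  carrier := {g | ∃ G : Fin k → (Fin n → ℂ) → ℂ, (∀ j, ∃ M, Bh r M (G j)) ∧
    ∀ x ∈ ball (0 : Fin n → ℂ) r, (g : (Fin n → ℂ) → ℂ) x = ∑ j, (s j x - y j) * G j x}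
  add_mem' := by
    rintro f g ⟨F, hF, hf⟩ ⟨G, hG, hg⟩
    refine ⟨fun j x => F j x + G j x, fun j => ?_, fun x hx => ?_⟩
    · obtain ⟨M, hM⟩ := hF j
      obtain ⟨N, hN⟩ := hG j
      exact ⟨_, hM.add hN⟩
    · change (f : (Fin n → ℂ) → ℂ) x + (g : (Fin n → ℂ) → ℂ) x = _
      rw [hf x hx, hg x hx, ← Finset.sum_add_distrib]
      exact Finset.sum_congr rfl fun j _ => by ring
  zero_mem' := ⟨fun _ _ => 0, fun _ => ⟨0, differentiableOn_const _, fun _ _ => by simp⟩,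
    fun x _ => by simp⟩
  smul_mem' := by
    rintro f g ⟨G, hG, hg⟩
    obtain ⟨N, hN⟩ := f.2
    refine ⟨fun j x => (f : (Fin n → ℂ) → ℂ) x * G j x, fun j => ?_, fun x hx => ?_⟩
    · obtain ⟨M, hM⟩ := hG j
      exact ⟨_, hN.mul hM⟩
    · change (f : (Fin n → ℂ) → ℂ) x * (g : (Fin n → ℂ) → ℂ) x = _
      rw [hg x hx, Finset.mul_sum]
      exact Finset.sum_congr rfl fun j _ => by ring

theorem mem_aI {s : Fin k → (Fin n → ℂ) → ℂ} {r : ℝ} {y : Fin k → ℂ} {g : Rb n r} :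
    g ∈ aI s r y ↔ ∃ G : Fin k → (Fin n → ℂ) → ℂ, (∀ j, ∃ M, Bh r M (G j)) ∧
    ∀ x ∈ ball (0 : Fin n → ℂ) r, (g : (Fin n → ℂ) → ℂ) x = ∑ j, (s j x - y j) * G j x := Iff.rfl

theorem mem_aI_of_zero {s : Fin k → (Fin n → ℂ) → ℂ} {r : ℝ} {y : Fin k → ℂ} {g : Rb n r}
    (h : ∀ x ∈ ball (0 : Fin n → ℂ) r, (g : (Fin n → ℂ) → ℂ) x = 0) : g ∈ aI s r y :=
  ⟨fun _ _ => 0, fun _ => ⟨0, differentiableOn_const _, fun _ _ => by simp⟩,
    fun x hx => by simp [h x hx]⟩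

theorem mem_aI_gen {s : Fin k → (Fin n → ℂ) → ℂ} {r : ℝ} {y : Fin k → ℂ} {g : Rb n r} (j : Fin k)
    (h : ∀ x ∈ ball (0 : Fin n → ℂ) r, (g : (Fin n → ℂ) → ℂ) x = s j x - y j) :
    g ∈ aI s r y := by
  classical
  refine ⟨fun i _ => if i = j then 1 else 0, fun i => ?_, fun x hx => ?_⟩
  · exact ⟨_, Bh.const (if i = j then (1 : ℂ) else 0)⟩
  · rw [h x hx]; simp

/-- constants -/
def cst (n : ℕ) (r : ℝ) (c : ℂ) : Rb n r := algebraMap ℂ (Rb n r) c

theorem cst_apply (r : ℝ) (c : ℂ) (x : Fin n → ℂ) : ((cst n r c : Rb n r) : (Fin n → ℂ) → ℂ) x = c :=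
  rfl

theorem isUnit_cst {r : ℝ} {c : ℂ} (hc : c ≠ 0) : IsUnit (cst n r c) :=
  (IsUnit.mk0 c hc).map (algebraMap ℂ (Rb n r))

/-- the derivative at the centre of a Gleason decomposition -/
theorem pd_of_decomp {r : ℝ} {g : (Fin n → ℂ) → ℂ} (hg : DifferentiableOn ℂ g (ball 0 r))
    {z : Fin n → ℂ} (hz : z ∈ ball (0 : Fin n → ℂ) r) {a : Fin n → (Fin n → ℂ) → ℂ}
    (ha : ∀ i, DifferentiableOn ℂ (a i) (ball 0 r))
    (h : ∀ x ∈ ball (0 : Fin n → ℂ) r, g x = g z + ∑ i, (x i - z i) * a i x) (i : Fin n) :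
    pd i g z = a i z := by
  have h1 : HasFDerivAt g (fderiv ℂ g z) z :=
    (hg.differentiableAt (isOpen_ball.mem_nhds hz)).hasFDerivAt
  have h2 : HasFDerivAt (fun x : Fin n → ℂ => g z + ∑ i, (x i - z i) * a i x)
      (∑ i, a i z • (ContinuousLinearMap.proj i : (Fin n → ℂ) →L[ℂ] ℂ)) z := by
    have h3 : ∀ i ∈ (Finset.univ : Finset (Fin n)), HasFDerivAt
        (fun x : Fin n → ℂ => (x i - z i) * a i x)
        (a i z • (ContinuousLinearMap.proj i : (Fin n → ℂ) →L[ℂ] ℂ)) z := by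
      intro i _
      have h4 : HasFDerivAt (fun x : Fin n → ℂ => x i - z i)
          (ContinuousLinearMap.proj i : (Fin n → ℂ) →L[ℂ] ℂ) z :=
        ((ContinuousLinearMap.proj i : (Fin n → ℂ) →L[ℂ] ℂ).hasFDerivAt).sub_const _
      have h5 := h4.mul (((ha i).differentiableAt (isOpen_ball.mem_nhds hz)).hasFDerivAt)
      refine h5.congr_fderiv ?_
      ext v
      simp
    have h6 := (HasFDerivAt.fun_sum h3).const_add (g z)
    exact h6
  have h7 : HasFDerivAt g (∑ i, a i z • (ContinuousLinearMap.proj i : (Fin n → ℂ) →L[ℂ] ℂ)) z := by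
    refine h2.congr_of_eventuallyEq ?_
    filter_upwards [isOpen_ball.mem_nhds hz] with x hx
    exact h x hx
  unfold pd
  rw [h7.fderiv]
  simp [Pi.single_apply]

/-- the matrix of derivatives -/
noncomputable def jm (s : Fin n → (Fin n → ℂ) → ℂ) (x : Fin n → ℂ) : Matrix (Fin n) (Fin n) ℂ :=
  Matrix.of fun j i => pd i (s j) x

section square

variable {s : Fin (m + 1) → (Fin (m + 1) → ℂ) → ℂ} {b : Fin d → (Fin (m + 1) → ℂ) → ℂ}
  {r K η : ℝ}

/-- a maximal ideal containing (s - y) is the ideal of a point -/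
theorem exists_point (D : Dv s b r K η) {y : Fin (m + 1) → ℂ}
    (hy : y ∈ ball (0 : Fin (m + 1) → ℂ) η) {P : Ideal (Rb (m + 1) r)} (hP : P.IsMaximal)
    (hle : aI s r y ≤ P) :
    ∃ z ∈ ball (0 : Fin (m + 1) → ℂ) r, (∀ j, s j z = y j) ∧
      ∀ g : Rb (m + 1) r, g - cst _ r ((g : (Fin (m + 1) → ℂ) → ℂ) z) ∈ P := by
  have hr := D.S.hr
  have hK := D.S.hK
  -- finite dimension
  have hbb : ∀ l, b l ∈ Rb (m + 1) r := fun l => ⟨K, D.S.bb l⟩
  let f : (Fin d → ℂ) →ₗ[ℂ] ((Rb (m + 1) r) ⧸ P) :=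
    Fintype.linearCombination ℂ (fun l => Ideal.Quotient.mk P ⟨b l, hbb l⟩)
  have hf : Function.Surjective f := by
    intro q
    obtain ⟨g, rfl⟩ := Ideal.Quotient.mk_surjective q
    obtain ⟨M, hM⟩ := g.2
    obtain ⟨C, -, hC⟩ := D.N g M hM
    obtain ⟨G, hG, hx⟩ := hC.eq y hy
    refine ⟨fun l => C l y, ?_⟩
    rw [Fintype.linearCombination_apply]
    have h1 : (∑ l, C l y • Ideal.Quotient.mk P (⟨b l, hbb l⟩ : Rb (m + 1) r)) =
        Ideal.Quotient.mk P (∑ l, C l y • (⟨b l, hbb l⟩ : Rb (m + 1) r)) := by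
      rw [map_sum]
      rfl
    rw [h1, eq_comm, Ideal.Quotient.eq]
    refine hle ⟨G, hG, fun x hx' => ?_⟩
    have h2 : ((g - ∑ l, C l y • (⟨b l, hbb l⟩ : Rb (m + 1) r) : Rb (m + 1) r) :
        (Fin (m + 1) → ℂ) → ℂ) x = (g : (Fin (m + 1) → ℂ) → ℂ) x - ∑ l, C l y * b l x := by
      simp
    rw [h2, hx x hx']
    ring
  have hfin : Module.Finite ℂ ((Rb (m + 1) r) ⧸ P) := Module.Finite.of_surjective f hf
  have hint : Algebra.IsIntegral ℂ ((Rb (m + 1) r) ⧸ P) := Algebra.IsIntegral.of_finite ℂ _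
  have hbij := IsAlgClosed.algebraMap_bijective_of_isIntegral (k := ℂ) (K := (Rb (m + 1) r) ⧸ P)
  -- the value of a function
  have hval : ∀ g : Rb (m + 1) r, ∃ c : ℂ, g - cst _ r c ∈ P := by
    intro g
    obtain ⟨c, hc⟩ := hbij.2 (Ideal.Quotient.mk P g)
    exact ⟨c, Ideal.Quotient.eq.1 hc.symm⟩
  choose v hv using hval
  have huniq : ∀ (c : ℂ), cst _ r c ∈ P → c = 0 := by
    intro c hc
    by_contra hne
    exact hP.ne_top (Ideal.eq_top_of_isUnit_mem _ hc (isUnit_cst hne))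
  have hmul : ∀ {a a' : Rb (m + 1) r} {c c' : ℂ}, a - cst _ r c ∈ P → a' - cst _ r c' ∈ P →
      a * a' - cst _ r (c * c') ∈ P := by
    intro a a' c c' h h'
    have h1 : a * a' - cst _ r (c * c') = a * (a' - cst _ r c') + cst _ r c' * (a - cst _ r c) := by
      have : cst (m + 1) r (c * c') = cst _ r c * cst _ r c' := map_mul (algebraMap ℂ _) c c'
      rw [this]; ring
    rw [h1]
    exact add_mem (Ideal.mul_mem_left _ _ h') (Ideal.mul_mem_left _ _ h)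
  have hpow : ∀ {a : Rb (m + 1) r} {c : ℂ} (L : ℕ), a - cst _ r c ∈ P →
      a ^ L - cst _ r (c ^ L) ∈ P := by
    intro a c L h
    induction L with
    | zero =>
      have : a ^ 0 - cst (m + 1) r (c ^ 0) = 0 := by
        rw [pow_zero, pow_zero, sub_eq_zero]
        exact (map_one (algebraMap ℂ (Rb (m + 1) r))).symm
      rw [this]; exact zero_mem _
    | succ L ih =>
      rw [pow_succ, pow_succ]
      exact hmul ih h
  -- the value is bounded
  have hbd : ∀ (g : Rb (m + 1) r) (M : ℝ) (c : ℂ), Bh r M (g : (Fin (m + 1) → ℂ) → ℂ) →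
      g - cst _ r c ∈ P → ‖c‖ ≤ M := by
    intro g M c hM hc
    by_contra hlt
    push Not at hlt
    have hpos : 0 < ‖c‖ - M := by linarith
    have hne : ∀ x ∈ ball (0 : Fin (m + 1) → ℂ) r, ‖c‖ - M ≤ ‖(g : (Fin (m + 1) → ℂ) → ℂ) x - c‖ := by
      intro x hx
      have h1 := hM.2 x hx
      have h2 := norm_sub_norm_le c ((g : (Fin (m + 1) → ℂ) → ℂ) x)
      rw [norm_sub_rev] at h2
      linarith
    have hinv : Bh r (‖c‖ - M)⁻¹ (fun x => ((g : (Fin (m + 1) → ℂ) → ℂ) x - c)⁻¹) := by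
      refine ⟨?_, fun x hx => ?_⟩
      · refine (hM.1.sub_const c).inv fun x hx h0 => ?_
        have := hne x hx
        rw [h0, norm_zero] at this
        linarith
      · rw [norm_inv]
        exact inv_anti₀ hpos (hne x hx)
    have h3 : (g - cst _ r c) * (⟨_, ⟨_, hinv⟩⟩ : Rb (m + 1) r) ∈ P := Ideal.mul_mem_right _ _ hc
    have h4 : (g - cst _ r c) * (⟨_, ⟨_, hinv⟩⟩ : Rb (m + 1) r) - 1 ∈ P := by
      refine hle (mem_aI_of_zero fun x hx => ?_)
      change ((g : (Fin (m + 1) → ℂ) → ℂ) x - c) * ((g : (Fin (m + 1) → ℂ) → ℂ) x - c)⁻¹ - 1 = 0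
      rw [mul_inv_cancel₀, sub_self]
      intro h0
      have := hne x hx
      rw [h0, norm_zero] at this
      linarith
    have h5 := sub_mem h3 h4
    rw [sub_sub_cancel] at h5
    exact hP.ne_top ((Ideal.eq_top_iff_one _).2 h5)
  -- the point
  have hco : ∀ i : Fin (m + 1), (fun x : Fin (m + 1) → ℂ => x i) ∈ Rb (m + 1) r :=
    fun i => ⟨r, Bh.coord hr i⟩
  set z : Fin (m + 1) → ℂ := fun i => v ⟨_, hco i⟩ with hz
  have hzP : ∀ i, (⟨_, hco i⟩ : Rb (m + 1) r) - cst _ r (z i) ∈ P := fun i => hv ⟨_, hco i⟩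
  have hss : ∀ j, s j ∈ Rb (m + 1) r := fun j => ⟨K, D.S.bs j⟩
  have hsP : ∀ j, (⟨s j, hss j⟩ : Rb (m + 1) r) - cst _ r (y j) ∈ P := fun j =>
    hle (mem_aI_gen j fun x _ => rfl)
  have hzb : z ∈ ball (0 : Fin (m + 1) → ℂ) r := by
    rw [mem_ball_zero_iff, pi_norm_lt_iff hr]
    intro i
    obtain ⟨L, hL, hpw⟩ := D.pw
    obtain ⟨α, hα, hx⟩ := hpw i
    have hαR : ∀ j, α j ∈ Rb (m + 1) r := fun j => ⟨K, hα j⟩
    have h1 : (⟨_, hco i⟩ : Rb (m + 1) r) ^ L - cst _ r (z i ^ L) ∈ P := hpow L (hzP i)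
    have h2 : ∀ j, (⟨s j, hss j⟩ : Rb (m + 1) r) * ⟨α j, hαR j⟩ -
        cst _ r (y j * v ⟨α j, hαR j⟩) ∈ P := fun j => hmul (hsP j) (hv ⟨α j, hαR j⟩)
    have h3 : (⟨_, hco i⟩ : Rb (m + 1) r) ^ L -
        ∑ j, (⟨s j, hss j⟩ : Rb (m + 1) r) * ⟨α j, hαR j⟩ ∈ P := by
      refine hle (mem_aI_of_zero fun x hx' => ?_)
      have : (((⟨_, hco i⟩ : Rb (m + 1) r) ^ L -
        ∑ j, (⟨s j, hss j⟩ : Rb (m + 1) r) * ⟨α j, hαR j⟩ : Rb (m + 1) r) :
          (Fin (m + 1) → ℂ) → ℂ) x = x i ^ L - ∑ j, s j x * α j x := by simp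
      rw [this, hx x hx', sub_self]
    have h4 : cst _ r (z i ^ L - ∑ j, y j * v ⟨α j, hαR j⟩) ∈ P := by
      have h5 := Submodule.sum_mem P (t := Finset.univ) (fun j _ => h2 j)
      have h6 := sub_mem (add_mem h3 h5) h1
      have h7 : (⟨_, hco i⟩ : Rb (m + 1) r) ^ L -
          ∑ j, (⟨s j, hss j⟩ : Rb (m + 1) r) * ⟨α j, hαR j⟩ +
          ∑ j, ((⟨s j, hss j⟩ : Rb (m + 1) r) * ⟨α j, hαR j⟩ - cst _ r (y j * v ⟨α j, hαR j⟩)) -
          ((⟨_, hco i⟩ : Rb (m + 1) r) ^ L - cst _ r (z i ^ L)) =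
          cst _ r (z i ^ L - ∑ j, y j * v ⟨α j, hαR j⟩) := by
        rw [Finset.sum_sub_distrib]
        have h8 : cst (m + 1) r (z i ^ L - ∑ j, y j * v ⟨α j, hαR j⟩) =
            cst _ r (z i ^ L) - ∑ j, cst _ r (y j * v ⟨α j, hαR j⟩) := by
          simp only [cst, map_sub, map_sum]
        rw [h8]
        ring
      rwa [h7] at h6
    have h9 := sub_eq_zero.1 (huniq _ h4)
    have h10 : ‖z i‖ ^ L ≤ (↑(m + 1) : ℝ) * K * η := by
      rw [← norm_pow, h9]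
      calc ‖∑ j, y j * v ⟨α j, hαR j⟩‖ ≤ ∑ j, ‖y j * v ⟨α j, hαR j⟩‖ := norm_sum_le _ _
        _ ≤ ∑ _j : Fin (m + 1), η * K := Finset.sum_le_sum fun j _ => by
            rw [norm_mul]
            refine mul_le_mul (norm_apply_lt hy j).le (hbd _ K _ (hα j) (hv ⟨α j, hαR j⟩))
              (norm_nonneg _) D.hη.le
        _ = (↑(m + 1) : ℝ) * K * η := by
            rw [Finset.sum_const, Finset.card_univ, Fintype.card_fin, nsmul_eq_mul]; ring
    exact lt_of_pow_lt_pow_left₀ L hr.le (h10.trans_lt hL)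
  have hgP : ∀ g : Rb (m + 1) r, g - cst _ r ((g : (Fin (m + 1) → ℂ) → ℂ) z) ∈ P := by
    intro g
    obtain ⟨M, hM⟩ := g.2
    obtain ⟨a, ha, hax⟩ := had (m + 1) r M z g hr hzb hM
    have haR : ∀ i, a i ∈ Rb (m + 1) r := fun i => ⟨_, ha i⟩
    have h1 : g - cst _ r ((g : (Fin (m + 1) → ℂ) → ℂ) z) -
        ∑ i, ((⟨_, hco i⟩ : Rb (m + 1) r) - cst _ r (z i)) * ⟨a i, haR i⟩ ∈ P := by
      refine hle (mem_aI_of_zero fun x hx => ?_)
      have : ((g - cst _ r ((g : (Fin (m + 1) → ℂ) → ℂ) z) -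
        ∑ i, ((⟨_, hco i⟩ : Rb (m + 1) r) - cst _ r (z i)) * ⟨a i, haR i⟩ : Rb (m + 1) r) :
          (Fin (m + 1) → ℂ) → ℂ) x = (g : (Fin (m + 1) → ℂ) → ℂ) x -
          (g : (Fin (m + 1) → ℂ) → ℂ) z - ∑ i, (x i - z i) * a i x := by
        simp [cst_apply]
      rw [this, hax x hx]
      ring
    have h2 : ∑ i, ((⟨_, hco i⟩ : Rb (m + 1) r) - cst _ r (z i)) * ⟨a i, haR i⟩ ∈ P :=
      Submodule.sum_mem _ fun i _ => Ideal.mul_mem_right _ _ (hzP i)
    have h3 := add_mem h1 h2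
    rwa [sub_add_cancel] at h3
  refine ⟨z, hzb, fun j => ?_, hgP⟩
  have h1 := sub_mem (hsP j) (hgP ⟨s j, hss j⟩)
  have h2 : (⟨s j, hss j⟩ : Rb (m + 1) r) - cst _ r (y j) -
      ((⟨s j, hss j⟩ : Rb (m + 1) r) - cst _ r (s j z)) = cst _ r (s j z - y j) := by
    have : cst (m + 1) r (s j z - y j) = cst _ r (s j z) - cst _ r (y j) :=
      map_sub (algebraMap ℂ _) _ _
    rw [this]; ring
  rw [h2] at h1
  exact sub_eq_zero.1 (huniq _ h1)

/-- **Nullstellensatz** at a regular value -/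
theorem nst (D : Dv s b r K η) {y : Fin (m + 1) → ℂ} (hy : y ∈ ball (0 : Fin (m + 1) → ℂ) η)
    (hreg : ∀ x ∈ ball (0 : Fin (m + 1) → ℂ) r, (∀ j, s j x = y j) → (jm s x).det ≠ 0)
    {g : Rb (m + 1) r}
    (hg : ∀ x ∈ ball (0 : Fin (m + 1) → ℂ) r, (∀ j, s j x = y j) →
      (g : (Fin (m + 1) → ℂ) → ℂ) x = 0) : g ∈ aI s r y := by
  have hr := D.S.hr
  have hK := D.S.hK
  let I : Ideal (Rb (m + 1) r) :=
    { carrier := {h | h * g ∈ aI s r y}
      add_mem' := fun {a b} ha hb => by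
        change (a + b) * g ∈ aI s r y
        rw [add_mul]; exact add_mem ha hb
      zero_mem' := by
        change 0 * g ∈ aI s r y
        rw [zero_mul]; exact zero_mem _
      smul_mem' := fun c a ha => by
        change (c * a) * g ∈ aI s r y
        rw [mul_assoc]; exact Ideal.mul_mem_left _ _ ha }
  have hI : ∀ h, h ∈ I ↔ h * g ∈ aI s r y := fun h => Iff.rfl
  by_cases htop : I = ⊤
  · have h1 := (hI 1).1 (by rw [htop]; trivial)
    rwa [one_mul] at h1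
  exfalso
  obtain ⟨P, hP, hIP⟩ := Ideal.exists_le_maximal I htop
  have hle : aI s r y ≤ P := fun h hh => hIP ((hI h).2 (Ideal.mul_mem_right _ _ hh))
  obtain ⟨z, hz, hsz, hzP⟩ := exists_point D hy hP hle
  have hco : ∀ i : Fin (m + 1), (fun x : Fin (m + 1) → ℂ => x i) ∈ Rb (m + 1) r :=
    fun i => ⟨r, Bh.coord hr i⟩
  -- Gleason for `s_j`
  choose a ha hax using fun j => had (m + 1) r K z (s j) hr hz (D.S.bs j)
  have haR : ∀ j i, a j i ∈ Rb (m + 1) r := fun j i => ⟨_, ha j i⟩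
  let A : Matrix (Fin (m + 1)) (Fin (m + 1)) (Rb (m + 1) r) := Matrix.of fun j i => ⟨a j i, haR j i⟩
  let ξ : Fin (m + 1) → Rb (m + 1) r := fun i => ⟨_, hco i⟩ - cst _ r (z i)
  have hξ : ∀ i x, ((ξ i : Rb (m + 1) r) : (Fin (m + 1) → ℂ) → ℂ) x = x i - z i := fun i x => rfl
  have hAξ : ∀ j, (A.mulVec ξ) j ∈ aI s r y := by
    intro j
    refine mem_aI_gen j fun x hx => ?_
    have h1 : ((A.mulVec ξ j : Rb (m + 1) r) : (Fin (m + 1) → ℂ) → ℂ) x =
        ∑ i, a j i x * (x i - z i) := by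
      simp only [Matrix.mulVec, dotProduct]
      simp only [AddSubmonoidClass.coe_finsetSum, Finset.sum_apply, MulMemClass.coe_mul,
        Pi.mul_apply, hξ]
      rfl
    rw [h1, hax j x hx, hsz j, add_sub_cancel_left]
    exact Finset.sum_congr rfl fun i _ => mul_comm _ _
  have hdet : ∀ i, A.det * ξ i ∈ aI s r y := by
    intro i
    have h1 : A.adjugate.mulVec (A.mulVec ξ) = A.det • ξ := by
      rw [Matrix.mulVec_mulVec, Matrix.adjugate_mul, Matrix.smul_mulVec, Matrix.one_mulVec]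
    have h2 := congrFun h1 i
    rw [Pi.smul_apply, smul_eq_mul] at h2
    rw [← h2]
    simp only [Matrix.mulVec, dotProduct]
    refine Submodule.sum_mem _ fun j _ => ?_
    exact Ideal.mul_mem_left _ _ (hAξ j)
  -- Gleason for `g`
  obtain ⟨M, hM⟩ := g.2
  obtain ⟨u, hu, hux⟩ := had (m + 1) r M z g hr hz hM
  have huR : ∀ i, u i ∈ Rb (m + 1) r := fun i => ⟨_, hu i⟩
  have hδ : A.det ∈ I := by
    rw [hI]
    have h1 : g - ∑ i, ξ i * ⟨u i, huR i⟩ ∈ aI s r y := by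
      refine mem_aI_of_zero fun x hx => ?_
      have : ((g - ∑ i, ξ i * ⟨u i, huR i⟩ : Rb (m + 1) r) : (Fin (m + 1) → ℂ) → ℂ) x =
          (g : (Fin (m + 1) → ℂ) → ℂ) x - ∑ i, (x i - z i) * u i x := by
        simp [hξ]
      rw [this, hux x hx, hg z hz hsz]
      ring
    have h2 : A.det * ∑ i, ξ i * (⟨u i, huR i⟩ : Rb (m + 1) r) ∈ aI s r y := by
      rw [Finset.mul_sum]
      refine Submodule.sum_mem _ fun i _ => ?_
      rw [← mul_assoc]
      exact Ideal.mul_mem_right _ _ (hdet i)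
    have h3 := add_mem (Ideal.mul_mem_left _ A.det h1) h2
    rwa [← mul_add, sub_add_cancel] at h3
  -- the value of the determinant
  have hval : ((A.det : Rb (m + 1) r) : (Fin (m + 1) → ℂ) → ℂ) z = (jm s z).det := by
    let evz : Rb (m + 1) r →+* ℂ :=
      (Pi.evalRingHom (fun _ : Fin (m + 1) → ℂ => ℂ) z).comp (Rb (m + 1) r).toSubring.subtype
    have h1 := evz.map_det A
    change ((A.det : Rb (m + 1) r) : (Fin (m + 1) → ℂ) → ℂ) z = _ at h1
    rw [h1]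
    congr 1
    ext1 j i
    change a j i z = pd i (s j) z
    exact (pd_of_decomp (D.S.bs j).1 hz (fun i => (ha j i).1) (hax j) i).symm
  have h1 := sub_mem (hIP hδ) (hzP A.det)
  rw [sub_sub_cancel, hval] at h1
  exact hP.ne_top (Ideal.eq_top_of_isUnit_mem _ h1 (isUnit_cst (hreg z hz hsz)))

/-- At a regular value there are `d` solutions `x_i` with `det (b_k (x_i)) ≠ 0`. -/
theorem exists_pts (D : Dv s b r K η) (B : Bas s b) {y : Fin (m + 1) → ℂ}
    (hy : y ∈ ball (0 : Fin (m + 1) → ℂ) η)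
    (hreg : ∀ x ∈ ball (0 : Fin (m + 1) → ℂ) r, (∀ j, s j x = y j) → (jm s x).det ≠ 0) :
    ∃ x : Fin d → (Fin (m + 1) → ℂ), (∀ i, x i ∈ ball (0 : Fin (m + 1) → ℂ) r ∧
      ∀ j, s j (x i) = y j) ∧ (Matrix.of fun k i => b k (x i)).det ≠ 0 := by
  classical
  set V : Set (Fin (m + 1) → ℂ) := {x | x ∈ ball (0 : Fin (m + 1) → ℂ) r ∧ ∀ j, s j x = y j} with hV
  set S : Set (Fin d → ℂ) := (fun x k => b k x) '' V with hS
  have hspan : Submodule.span ℂ S = ⊤ := by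
    by_contra hne
    obtain ⟨φ, hφ, hker⟩ := Submodule.exists_le_ker_of_lt_top _ (lt_top_iff_ne_top.2 hne)
    apply hφ
    set c : Fin d → ℂ := fun l => φ (Pi.single l 1) with hc
    have hφc : ∀ w : Fin d → ℂ, φ w = ∑ l, c l * w l := by
      intro w
      have h1 : w = ∑ l, w l • (Pi.single l 1 : Fin d → ℂ) := by
        funext j
        simp [Finset.sum_apply, Pi.single_apply]
      conv_lhs => rw [h1]
      rw [map_sum]
      exact Finset.sum_congr rfl fun l _ => by rw [map_smul, smul_eq_mul, mul_comm]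
    have hR : (fun x => ∑ l, c l * b l x) ∈ Rb (m + 1) r :=
      ⟨_, Bh.sum Finset.univ fun l _ => (D.S.bb l).cmul (c l)⟩
    have h2 : (⟨_, hR⟩ : Rb (m + 1) r) ∈ aI s r y := by
      refine nst D hy hreg fun x hx hsx => ?_
      change ∑ l, c l * b l x = 0
      rw [← hφc (fun k => b k x)]
      exact hker (Submodule.subset_span ⟨x, ⟨hx, hsx⟩, rfl⟩)
    obtain ⟨G, hG, hx⟩ := h2
    have h3 := D.indep B hy hG hx
    ext w
    simp [hφc, h3]
  obtain ⟨T, hTS, hTspan, hTli⟩ := exists_linearIndependent ℂ S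
  rw [hspan] at hTspan
  have hbT : ⊤ ≤ Submodule.span ℂ (Set.range (Subtype.val : T → (Fin d → ℂ))) := by
    rw [Subtype.range_val, hTspan]
  let BT := Module.Basis.mk hTli hbT
  let e : Fin d ≃ T := (Pi.basisFun ℂ (Fin d)).indexEquiv BT
  choose p hp using fun i : Fin d => hTS (e i).2
  refine ⟨p, fun i => (hp i).1, ?_⟩
  have hli : LinearIndependent ℂ (fun i : Fin d => ((e i : T) : Fin d → ℂ)) := by
    exact hTli.comp e e.injective
  have h1 : (Matrix.of fun k i => b k (p i)).transpose = Matrix.of fun i => ((e i : T) : Fin d → ℂ) := by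
    ext1 i k
    change b k (p i) = ((e i : T) : Fin d → ℂ) k
    rw [← (hp i).2]
  rw [← Matrix.det_transpose, h1]
  have h2 : IsUnit (Matrix.of fun i => ((e i : T) : Fin d → ℂ)) := by
    rw [← Matrix.linearIndependent_rows_iff_isUnit]
    exact hli
  exact ((Matrix.isUnit_iff_isUnit_det _).1 h2).ne_zero

end square

end Vale.Agent.P298.H714
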