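import Vale.Agent.P298.H714.Had

/-!
P298, row E1-LOW (helper714), part 4: existence of division data on small polydiscs.
-/

namespace Vale.Agent.P298.H714

open Filter Topology Metric Set Vale.Agent.P298 Module

variable {n k d : ℕ}

theorem ev_ball {P : (Fin n → ℂ) → Prop} (h : ∀ᶠ x in 𝓝 (0 : Fin n → ℂ), P x) :
    ∀ᶠ r in 𝓝[>] (0 : ℝ), ∀ x ∈ ball (0 : Fin n → ℂ) r, P x := by
  obtain ⟨ρ, hρ, H⟩ := Metric.eventually_nhds_iff_ball.1 h
  filter_upwards [Ioo_mem_nhdsGT hρ] with r hr x hx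
  exact H x (ball_subset_ball hr.2.le hx)

theorem ev_bh {h : (Fin n → ℂ) → ℂ} (hh : Hol h) : ∀ᶠ r in 𝓝[>] (0 : ℝ), ∃ M, Bh r M h := by
  obtain ⟨ρ, hρ, M, H⟩ := hol_bh hh
  filter_upwards [Ioo_mem_nhdsGT hρ] with r hr
  exact ⟨M, H.anti hr.2.le⟩

theorem exists_spl (hn : 0 < n) {s : Fin k → (Fin n → ℂ) → ℂ} (hs : ∀ j, Hol (s j))
    {b : Fin d → (Fin n → ℂ) → ℂ} (hb : ∀ l, Hol (b l))
    (H : ∀ f, Hol f → ∃! c : Fin d → ℂ, InIdeal s (fun x => f x - ∑ i, c i * b i x)) :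
    ∃ r₀ > 0, ∀ r, 0 < r → r ≤ r₀ → ∃ K, Spl s b r K := by
  classical
  have hcol : HasColength (Set.range s) d := hasColength_of_colength hs ⟨b, hb, H⟩
  have hpw : ∀ i : Fin n, InIdeal s (fun x : Fin n → ℂ => x i ^ d) := by
    intro i
    have h1 := coord_pow_mem (locIdeal (Set.range s)) (nul_le_locIdeal _) hcol.1 (coordF n i)
      (ev0_coordF i)
    rw [hcol.2, mem_locIdeal_iff hs] at h1
    exact h1
  choose α hα hα' using hpw
  have hmon : ∀ β : Fin n → Fin d, Hol (fun x : Fin n → ℂ => ∏ i, x i ^ (β i : ℕ)) := by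
    intro β
    have : Differentiable ℂ (fun x : Fin n → ℂ => ∏ i, x i ^ (β i : ℕ)) := by fun_prop
    exact Vale.Agent.P097.Hol.analyticAt_of_differentiableOn isOpen_univ
      this.differentiableOn (mem_univ _)
  have hR2 : ∀ β : Fin n → Fin d, ∃ c : Fin d → ℂ, ∃ a : Fin k → (Fin n → ℂ) → ℂ,
      (∀ j, Hol (a j)) ∧ ∀ᶠ x in 𝓝 (0 : Fin n → ℂ),
        ∏ i, x i ^ (β i : ℕ) = ∑ l, c l * b l x + ∑ j, s j x * a j x := by
    intro β
    obtain ⟨c, ⟨a, ha, hx⟩, -⟩ := H _ (hmon β)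
    refine ⟨c, a, ha, ?_⟩
    filter_upwards [hx] with x hx
    rw [sub_eq_iff_eq_add'] at hx
    rw [hx]
    congr 1
    exact Finset.sum_congr rfl fun j _ => mul_comm _ _
  choose c a ha hca using hR2
  have e1 : ∀ᶠ r in 𝓝[>] (0 : ℝ), ∀ j, ∃ M, Bh r M (s j) :=
    eventually_all.2 fun j => ev_bh (hs j)
  have e2 : ∀ᶠ r in 𝓝[>] (0 : ℝ), ∀ l, ∃ M, Bh r M (b l) :=
    eventually_all.2 fun l => ev_bh (hb l)
  have e3 : ∀ᶠ r in 𝓝[>] (0 : ℝ), ∀ i j, ∃ M, Bh r M (α i j) :=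
    eventually_all.2 fun i => eventually_all.2 fun j => ev_bh (hα i j)
  have e4 : ∀ᶠ r in 𝓝[>] (0 : ℝ), ∀ i, ∀ x ∈ ball (0 : Fin n → ℂ) r,
      x i ^ d = ∑ j, α i j x * s j x := eventually_all.2 fun i => ev_ball (hα' i)
  have e5 : ∀ᶠ r in 𝓝[>] (0 : ℝ), ∀ β j, ∃ M, Bh r M (a β j) :=
    eventually_all.2 fun β => eventually_all.2 fun j => ev_bh (ha β j)
  have e6 : ∀ᶠ r in 𝓝[>] (0 : ℝ), ∀ β, ∀ x ∈ ball (0 : Fin n → ℂ) r,
      ∏ i, x i ^ (β i : ℕ) = ∑ l, c β l * b l x + ∑ j, s j x * a β j x :=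
    eventually_all.2 fun β => ev_ball (hca β)
  have e := e1.and (e2.and (e3.and (e4.and (e5.and e6))))
  obtain ⟨r₁, hr₁, hsub⟩ := mem_nhdsGT_iff_exists_Ioo_subset.1 e
  have hr₁' : (0 : ℝ) < r₁ := hr₁
  refine ⟨r₁ / 2, half_pos hr₁', fun r hr hrr => ?_⟩
  obtain ⟨h1, h2, h3, h4, h5, h6⟩ := hsub (show r ∈ Ioo 0 r₁ from ⟨hr, by linarith⟩)
  choose M1 h1 using h1
  choose M2 h2 using h2
  choose M3 h3 using h3
  choose M5 h5 using h5
  have p1 : ∀ j, 0 ≤ M1 j := fun j => (h1 j).nonneg hr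
  have p2 : ∀ j, 0 ≤ M2 j := fun j => (h2 j).nonneg hr
  have p3 : ∀ i j, 0 ≤ M3 i j := fun i j => (h3 i j).nonneg hr
  have p5 : ∀ i j, 0 ≤ M5 i j := fun i j => (h5 i j).nonneg hr
  set K0 : ℝ := ∑ j, M1 j + ∑ l, M2 l + ∑ i, ∑ j, M3 i j + ∑ β, ∑ j, M5 β j +
    ∑ β, ∑ l, ‖c β l‖ with hK0
  have q1 : 0 ≤ ∑ j, M1 j := Finset.sum_nonneg fun j _ => p1 j
  have q2 : 0 ≤ ∑ j, M2 j := Finset.sum_nonneg fun j _ => p2 j
  have q3 : 0 ≤ ∑ i, ∑ j, M3 i j := Finset.sum_nonneg fun i _ => Finset.sum_nonneg fun j _ => p3 i j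
  have q5 : 0 ≤ ∑ i, ∑ j, M5 i j := Finset.sum_nonneg fun i _ => Finset.sum_nonneg fun j _ => p5 i j
  have q6 : 0 ≤ ∑ β, ∑ l, ‖c β l‖ :=
    Finset.sum_nonneg fun i _ => Finset.sum_nonneg fun j _ => norm_nonneg _
  have hK0n : 0 ≤ K0 := by rw [hK0]; linarith
  have b1 : ∀ j, M1 j ≤ K0 := fun j => by
    have := Finset.single_le_sum (fun j _ => p1 j) (Finset.mem_univ j)
    rw [hK0]; linarith
  have b2 : ∀ j, M2 j ≤ K0 := fun j => by
    have := Finset.single_le_sum (fun j _ => p2 j) (Finset.mem_univ j)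
    rw [hK0]; linarith
  have b3 : ∀ i j, M3 i j ≤ K0 := fun i j => by
    have h1 := Finset.single_le_sum (fun j _ => p3 i j) (Finset.mem_univ j)
    have h2 := Finset.single_le_sum (f := fun i => ∑ j, M3 i j)
      (fun i _ => Finset.sum_nonneg fun j _ => p3 i j) (Finset.mem_univ i)
    rw [hK0]; linarith
  have b5 : ∀ i j, M5 i j ≤ K0 := fun i j => by
    have h1 := Finset.single_le_sum (fun j _ => p5 i j) (Finset.mem_univ j)
    have h2 := Finset.single_le_sum (f := fun i => ∑ j, M5 i j)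
      (fun i _ => Finset.sum_nonneg fun j _ => p5 i j) (Finset.mem_univ i)
    rw [hK0]; linarith
  have b6 : ∀ β l, ‖c β l‖ ≤ K0 := fun β l => by
    have h1 := Finset.single_le_sum (fun j _ => norm_nonneg (c β j)) (Finset.mem_univ l)
    have h2 := Finset.single_le_sum (f := fun β => ∑ l, ‖c β l‖)
      (fun i _ => Finset.sum_nonneg fun j _ => norm_nonneg _) (Finset.mem_univ β)
    rw [hK0]; linarith
  have R1 : ∀ i : Fin n, ∃ α : Fin k → (Fin n → ℂ) → ℂ, (∀ j, Bh r K0 (α j)) ∧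
      ∀ x ∈ ball (0 : Fin n → ℂ) r, x i ^ d = ∑ j, s j x * α j x := fun i =>
    ⟨α i, fun j => (h3 i j).mono (b3 i j), fun x hx => by
      rw [h4 i x hx]; exact Finset.sum_congr rfl fun j _ => mul_comm _ _⟩
  have R2 : ∀ β : Fin n → ℕ, (∀ i, β i < d) → ∃ (c : Fin d → ℂ) (a : Fin k → (Fin n → ℂ) → ℂ),
      (∀ l, ‖c l‖ ≤ K0) ∧ (∀ j, Bh r K0 (a j)) ∧
      ∀ x ∈ ball (0 : Fin n → ℂ) r, ∏ i, x i ^ β i = ∑ l, c l * b l x + ∑ j, s j x * a j x :=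
    fun β hβ => ⟨c (fun i => ⟨β i, hβ i⟩), a (fun i => ⟨β i, hβ i⟩), fun l => b6 _ l,
      fun j => (h5 _ j).mono (b5 _ j), fun x hx => h6 (fun i => ⟨β i, hβ i⟩) x hx⟩
  obtain ⟨K1, hK1, HK1⟩ := sp_all (had n) hn hr hK0n d R1 R2 (n * d) (fun _ => 0) (by simp)
  refine ⟨K0 + K1, hr, by linarith, fun j => (h1 j).mono ((b1 j).trans (by linarith)),
    fun l => (h2 l).mono ((b2 l).trans (by linarith)), fun g M hg => ?_, d, fun i => ?_⟩
  · have hM := hg.nonneg hr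
    obtain ⟨c', a', hc', ha', hx⟩ := HK1 g M hg
    refine ⟨c', a', fun l => (hc' l).trans ?_, fun j => (ha' j).mono ?_, fun x hx' => ?_⟩
    · exact mul_le_mul_of_nonneg_right (by linarith) hM
    · exact mul_le_mul_of_nonneg_right (by linarith) hM
    · have := hx x hx'
      simpa using this
  · obtain ⟨α', h7, h8⟩ := R1 i
    exact ⟨α', fun j => (h7 j).mono (by linarith), h8⟩

end Vale.Agent.P298.H714
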