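import Vale.Agent.P298.H714.Fib
import Vale.Agent.P298.H714.FinIK

/-!
P298, row E1-LOW (helper714), part 16: the trace form and the existence of the data on small
polydiscs.
-/

namespace Vale.Agent.P298.H714

open Filter Topology Metric Set MeasureTheory Vale.Agent.P298

variable {d : ℕ} {f e e' : (Fin 3 → ℂ) → ℂ} {b : Fin d → (Fin 3 → ℂ) → ℂ} {r K η : ℝ}

/-- the trace form -/
structure Tr (f e e' : (Fin 3 → ℂ) → ℂ) (b : Fin d → (Fin 3 → ℂ) → ℂ) (r η : ℝ)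
    (T : Fin d → Fin d → (Fin 2 → ℂ) → ℂ) : Prop where
  an : ∀ k l, AnalyticOnNhd ℂ (T k l) (ball (0 : Fin 2 → ℂ) η)
  eq : ∀ (q : ℂ × ℂ) (x : Fin d → (Fin 3 → ℂ)), ‖q‖ < η → Pts f e e' b r q x →
    ∀ k l, T k l ![q.1, q.2] = ∑ i, b k (x i) * b l (x i)

theorem Set3.exists_tr (S : Set3 f e e' b r K η) : ∃ T, Tr f e e' b r η T := by
  choose m hm using fun k l => S.exists_mt ((S.D.S.bb k).mul (S.D.S.bb l))
  refine ⟨fun k l v => ∑ i, m k l i i (par v), fun k l v hv => ?_, fun q x hq P k l => ?_⟩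
  · exact Finset.analyticAt_fun_sum _ fun i _ => (hm k l).an i i v hv
  · exact (hm k l).trace_eq hq P

/-- the discriminant -/
noncomputable def Tr.D (T : Fin d → Fin d → (Fin 2 → ℂ) → ℂ) (v : Fin 2 → ℂ) : ℂ :=
  (Matrix.of fun k l => T k l v).det

namespace Tr

variable {T : Fin d → Fin d → (Fin 2 → ℂ) → ℂ}

theorem D_an (H : Tr f e e' b r η T) : AnalyticOnNhd ℂ (Tr.D T) (ball (0 : Fin 2 → ℂ) η) := by
  have h1 : Tr.D T = fun v => ∑ σ : Equiv.Perm (Fin d), ((Equiv.Perm.sign σ : ℤ) : ℂ) *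
        ∏ i, T (σ i) i v := by
    funext v
    rw [Tr.D, Matrix.det_apply']
    rfl
  rw [h1]
  intro v hv
  refine Finset.analyticAt_fun_sum _ fun σ _ => analyticAt_const.mul ?_
  exact Finset.analyticAt_fun_prod _ fun i _ => H.an _ _ v hv

theorem mat_eq (H : Tr f e e' b r η T) {q : ℂ × ℂ} (hq : ‖q‖ < η) {x : Fin d → (Fin 3 → ℂ)}
    (P : Pts f e e' b r q x) : (Matrix.of fun k l => T k l ![q.1, q.2]) =
      (Matrix.of fun k i => b k (x i)) * (Matrix.of fun k i => b k (x i)).transpose := by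
  ext1 k l
  rw [Matrix.of_apply, H.eq q x hq P, Matrix.mul_apply]
  rfl

theorem D_ne (H : Tr f e e' b r η T) {q : ℂ × ℂ} (hq : ‖q‖ < η) {x : Fin d → (Fin 3 → ℂ)}
    (P : Pts f e e' b r q x) : Tr.D T ![q.1, q.2] ≠ 0 := by
  rw [Tr.D, H.mat_eq hq P, Matrix.det_mul, Matrix.det_transpose]
  exact mul_ne_zero P.det P.det

theorem not_ev_zero (S : Set3 f e e' b r K η) (H : Tr f e e' b r η T) :
    ¬ ∀ᶠ v in 𝓝 (0 : Fin 2 → ℂ), Tr.D T v = 0 := by
  intro hev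
  have hκc : Continuous fun q : ℂ × ℂ => (![q.1, q.2] : Fin 2 → ℂ) := by
    refine continuous_pi fun j => ?_
    fin_cases j
    · exact continuous_fst
    · exact continuous_snd
  have h1 : Tendsto (fun q : ℂ × ℂ => (![q.1, q.2] : Fin 2 → ℂ)) (𝓝 0) (𝓝 0) := by
    have := hκc.tendsto 0
    have h0 : (![(0 : ℂ × ℂ).1, (0 : ℂ × ℂ).2] : Fin 2 → ℂ) = 0 := by
      funext j; fin_cases j <;> rfl
    rwa [h0] at this
  have h2 := (h1.eventually hev).and (ball_mem_nhds (0 : ℂ × ℂ) S.D.hη)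
  obtain ⟨U, hU, hUo, hUm⟩ := _root_.eventually_nhds_iff.1 h2
  obtain ⟨q, hqU, hq0, hqx⟩ := (Measure.dense_of_ae S.ae_pts).inter_open_nonempty U hUo ⟨_, hUm⟩
  obtain ⟨h3, h4⟩ := hU q hqU
  have h5 : ‖q‖ < η := mem_ball_zero_iff.1 h4
  obtain ⟨x, P⟩ := hqx h5
  exact H.D_ne h5 P h3

theorem lower (S : Set3 f e e' b r K η) (H : Tr f e e' b r η T) :
    ∃ C > 0, ∃ δ > 0, δ ≤ η ∧ ∀ (q : ℂ × ℂ) (x : Fin d → (Fin 3 → ℂ)), ‖q‖ < δ →
      Pts f e e' b r q x → ∀ (c : Fin d → ℂ) (l : Fin d),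
        ‖Tr.D T ![q.1, q.2]‖ * ‖c l‖ ≤ C * ∑ i, ‖∑ k, c k * b k (x i)‖ := by
  have hK := S.D.S.hK
  have hη := S.D.hη
  set A : (Fin 2 → ℂ) → Matrix (Fin d) (Fin d) ℂ := fun v => Matrix.of fun k l => T k l v with hA
  have hAc : ContinuousAt A 0 := by
    have h1 : ContinuousAt (fun v => (fun k l => T k l v : Fin d → Fin d → ℂ)) 0 :=
      continuousAt_pi.2 fun k => continuousAt_pi.2 fun l =>
        (H.an k l 0 (mem_ball_self hη)).continuousAt
    exact h1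
  have hadj : ContinuousAt (fun v => (A v).adjugate) 0 := by
    have h1 : Continuous fun M : Matrix (Fin d) (Fin d) ℂ => M.adjugate :=
      continuous_id.matrix_adjugate
    exact h1.continuousAt.comp hAc
  have hbd : ∀ j l, ∀ᶠ v in 𝓝 (0 : Fin 2 → ℂ), ‖(A v).adjugate j l‖ < ‖(A 0).adjugate j l‖ + 1 := by
    intro j l
    have h1 : ContinuousAt (fun v => (A v).adjugate j l) 0 :=
      (continuousAt_pi.1 (continuousAt_pi.1 hadj j) l)
    exact h1.norm.eventually (gt_mem_nhds (lt_add_one _))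
  have hbd2 : ∀ᶠ v in 𝓝 (0 : Fin 2 → ℂ), ∀ j l, ‖(A v).adjugate j l‖ < ‖(A 0).adjugate j l‖ + 1 :=
    eventually_all.2 fun j => eventually_all.2 fun l => hbd j l
  obtain ⟨δ, hδ, Hδ⟩ := Metric.eventually_nhds_iff_ball.1 hbd2
  set C₁ : ℝ := ∑ j, ∑ l, (‖(A 0).adjugate j l‖ + 1) with hC₁
  have hC₁n : 0 ≤ C₁ := Finset.sum_nonneg fun j _ => Finset.sum_nonneg fun l _ => by positivity
  have hle : ∀ j l, ‖(A 0).adjugate j l‖ + 1 ≤ C₁ := by
    intro j l
    have h1 := Finset.single_le_sum (f := fun l => ‖(A 0).adjugate j l‖ + 1)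
      (fun l _ => by positivity) (Finset.mem_univ l)
    have h2 := Finset.single_le_sum (f := fun j => ∑ l, (‖(A 0).adjugate j l‖ + 1))
      (fun j _ => Finset.sum_nonneg fun l _ => by positivity) (Finset.mem_univ j)
    exact h1.trans h2
  refine ⟨d * K * C₁ + 1, by positivity, min δ η, lt_min hδ hη, min_le_right _ _,
    fun q x hq P c l => ?_⟩
  have hqη : ‖q‖ < η := hq.trans_le (min_le_right _ _)
  have hv : (![q.1, q.2] : Fin 2 → ℂ) ∈ ball (0 : Fin 2 → ℂ) δ := by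
    rw [mem_ball_zero_iff, pi_norm_lt_iff hδ]
    have hqδ := hq.trans_le (min_le_left _ _)
    intro j
    fin_cases j
    · exact (norm_fst_le q).trans_lt hqδ
    · exact (norm_snd_le q).trans_lt hqδ
  set w : Fin d → ℂ := fun i => ∑ k, c k * b k (x i) with hw
  set Sw : ℝ := ∑ i, ‖w i‖ with hSw
  have hSw0 : 0 ≤ Sw := Finset.sum_nonneg fun i _ => norm_nonneg _
  set u : Fin d → ℂ := Matrix.vecMul c (A ![q.1, q.2]) with hu
  have huw : ∀ j, u j = ∑ i, w i * b j (x i) := by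
    intro j
    have h1 : u j = ∑ k, c k * T k j ![q.1, q.2] := rfl
    rw [h1]
    have h2 : ∀ k, c k * T k j ![q.1, q.2] = ∑ i, c k * b k (x i) * b j (x i) := by
      intro k
      rw [H.eq q x hqη P, Finset.mul_sum]
      exact Finset.sum_congr rfl fun i _ => by ring
    rw [Finset.sum_congr rfl fun k _ => h2 k, Finset.sum_comm]
    exact Finset.sum_congr rfl fun i _ => by rw [hw, Finset.sum_mul]
  have huK : ∀ j, ‖u j‖ ≤ K * Sw := by
    intro j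
    rw [huw, hSw, Finset.mul_sum]
    refine (norm_sum_le _ _).trans (Finset.sum_le_sum fun i _ => ?_)
    rw [norm_mul, mul_comm]
    exact mul_le_mul_of_nonneg_right ((S.D.S.bb j).2 _ (P.mem i)) (norm_nonneg _)
  have hcD : Tr.D T ![q.1, q.2] * c l = ∑ j, u j * (A ![q.1, q.2]).adjugate j l := by
    have h1 : Matrix.vecMul u (A ![q.1, q.2]).adjugate = Tr.D T ![q.1, q.2] • c := by
      rw [hu, Matrix.vecMul_vecMul, Matrix.mul_adjugate, Matrix.vecMul_smul, Matrix.vecMul_one]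
      rfl
    have h2 := congrFun h1 l
    rw [Pi.smul_apply, smul_eq_mul] at h2
    rw [← h2]
    rfl
  rw [← norm_mul, hcD]
  calc ‖∑ j, u j * (A ![q.1, q.2]).adjugate j l‖ ≤ ∑ j, ‖u j * (A ![q.1, q.2]).adjugate j l‖ :=
        norm_sum_le _ _
    _ ≤ ∑ _j : Fin d, (K * Sw) * C₁ := Finset.sum_le_sum fun j _ => by
        rw [norm_mul]
        exact mul_le_mul (huK j) (((Hδ _ hv j l).le).trans (hle j l)) (norm_nonneg _)
          (by positivity)
    _ = d * K * C₁ * Sw := by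
        rw [Finset.sum_const, Finset.card_univ, Fintype.card_fin, nsmul_eq_mul]; ring
    _ ≤ (d * K * C₁ + 1) * Sw := mul_le_mul_of_nonneg_right (by linarith) hSw0

end Tr

/-- isolated critical points -/
theorem crit_isolated {f : (Fin 3 → ℂ) → ℂ} (hf : Hol f) {μ : ℕ} (hμ : Milnor f μ) :
    ∀ᶠ x in 𝓝 (0 : Fin 3 → ℂ), (∀ l, pd l f x = 0) → x = 0 := by
  have hs : ∀ j, Hol ((fun i => pd i f : Fin 3 → (Fin 3 → ℂ) → ℂ) j) := by
    intro j
    have h1 : AnalyticAt ℂ (fderiv ℂ f) 0 := AnalyticAt.fderiv hf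
    exact ((ContinuousLinearMap.apply ℂ ℂ (Pi.single j 1 : Fin 3 → ℂ)).analyticAt _).comp h1
  have hcol : HasColength (Set.range fun i => pd i f) μ := hasColength_of_colength hs hμ
  have hpw : ∀ i : Fin 3, InIdeal (fun i => pd i f) (fun x : Fin 3 → ℂ => x i ^ μ) := by
    intro i
    have h1 := coord_pow_mem (locIdeal (Set.range fun i => pd i f)) (nul_le_locIdeal _) hcol.1
      (coordF 3 i) (ev0_coordF i)
    rw [hcol.2, mem_locIdeal_iff hs] at h1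
    exact h1
  have h2 : ∀ i : Fin 3, ∀ᶠ x in 𝓝 (0 : Fin 3 → ℂ), (∀ l, pd l f x = 0) → x i = 0 := by
    intro i
    obtain ⟨a, -, ha⟩ := hpw i
    filter_upwards [ha] with x hx h0
    simp only [h0, mul_zero, Finset.sum_const_zero] at hx
    exact eq_zero_of_pow_eq_zero hx
  filter_upwards [eventually_all.2 h2] with x hx h0
  funext i
  exact hx i h0

theorem hol_pd' {f : (Fin 3 → ℂ) → ℂ} (hf : Hol f) (j : Fin 3) : Hol (pd j f) := by
  have h1 : AnalyticAt ℂ (fderiv ℂ f) 0 := AnalyticAt.fderiv hf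
  exact ((ContinuousLinearMap.apply ℂ ℂ (Pi.single j 1 : Fin 3 → ℂ)).analyticAt _).comp h1

/-- existence of the data, on polydiscs contained in any given neighbourhood -/
theorem exists_set3 (hf : Hol f) (he : Hol e) (he' : Hol e') (f0 : f 0 = 0) (e0 : e 0 = 0)
    (e0' : e' 0 = 0) {μ : ℕ} (hμ : Milnor f μ) (hd : Colength ![f, e, e'] d)
    {Q : (Fin 3 → ℂ) → Prop} (hQ : ∀ᶠ x in 𝓝 (0 : Fin 3 → ℂ), Q x)
    {g : (Fin 3 → ℂ) → ℂ} (hg : Hol g) :
    ∃ (b : Fin d → (Fin 3 → ℂ) → ℂ) (r K η : ℝ), Set3 f e e' b r K η ∧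
      (∀ x ∈ ball (0 : Fin 3 → ℂ) r, Q x) ∧ ∃ M, Bh r M g := by
  obtain ⟨b, hb, H⟩ := hd
  have hs : ∀ j, Hol ((![f, e, e'] : Fin 3 → (Fin 3 → ℂ) → ℂ) j) := by
    intro j; fin_cases j <;> assumption
  have hs0 : ∀ j, (![f, e, e'] : Fin 3 → (Fin 3 → ℂ) → ℂ) j 0 = 0 := by
    intro j; fin_cases j <;> assumption
  obtain ⟨r₀, hr₀, Hr⟩ := exists_spl (by norm_num) hs hb H
  have h1 := (ev_ball ((crit_isolated hf hμ).and hQ)).and ((ev_bh hg).and (Ioo_mem_nhdsGT hr₀))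
  obtain ⟨r, hr1, hr2, hr3⟩ := h1.exists
  obtain ⟨K, hK⟩ := Hr r hr3.1 hr3.2.le
  obtain ⟨η, hη, Hη⟩ := hK.exists_dv
  exact ⟨b, r, K, η, ⟨⟨hs, hs0, hb, H⟩, Hη η hη le_rfl, fun x hx _ hc => (hr1 x hx).1 hc⟩,
    fun x hx => (hr1 x hx).2, hr2⟩

end Vale.Agent.P298.H714
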