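import Vale.Agent.P298.H714.Nst
import Vale.Agent.P298.H373.Inst

/-!
P298, row E1-LOW (helper714), part 13: if `∂₃ f` vanishes on an open part of the surface `f = 0`
arbitrarily near `0`, then `f (0, 0, z) = 0` for small `z`.
-/

namespace Vale.Agent.P298.H714

open Filter Topology Metric Set Vale.Agent.P298
open scoped NNReal

theorem le_of_zero {f u : (Fin 3 → ℂ) → ℂ} {x₀ : Fin 3 → ℂ} (hf : AnalyticAt ℂ f x₀)
    (f0 : f x₀ = 0) (hu : AnalyticAt ℂ u x₀) {l : Fin 3} (hl : pd l f x₀ ≠ 0)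
    (H : ∀ᶠ x in 𝓝 x₀, f x = 0 → u x = 0) : ∃ C : ℝ, ∀ᶠ x in 𝓝 x₀, ‖u x‖ ≤ C * ‖f x‖ := by
  classical
  have hst : HasStrictFDerivAt (H373.Psi f l)
      (((H373.dPsi f l x₀).toContinuousLinearEquivOfDetNeZero (H373.det_dPsi_ne hl) :
        (Fin 3 → ℂ) ≃L[ℂ] (Fin 3 → ℂ)) : (Fin 3 → ℂ) →L[ℂ] (Fin 3 → ℂ)) x₀ := by
    simpa using H373.hasStrictFDerivAt_Psi hf l
  set z₀ := H373.Psi f l x₀ with hz₀
  have hz₀l : z₀ l = 0 := by rw [hz₀]; simp [H373.Psi, f0]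
  set Θ := hst.localInverse (H373.Psi f l) _ x₀ with hΘ
  have hΘst := hst.to_localInverse
  have hΘ0 : Θ z₀ = x₀ := hst.localInverse_apply_image
  have hleft : ∀ᶠ x in 𝓝 x₀, Θ (H373.Psi f l x) = x := hst.eventually_left_inverse
  have hright : ∀ᶠ z in 𝓝 z₀, H373.Psi f l (Θ z) = z := hst.eventually_right_inverse
  have hΘc : Tendsto Θ (𝓝 z₀) (𝓝 x₀) := by
    have := hΘst.hasFDerivAt.continuousAt.tendsto
    rwa [show hst.localInverse (H373.Psi f l) _ x₀ z₀ = x₀ from hΘ0] at this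
  have hcomp0 : HasStrictFDerivAt u (fderiv ℂ u x₀) (Θ z₀) := by
    rw [hΘ0]; exact hu.hasStrictFDerivAt
  have hcomp := hcomp0.comp z₀ hΘst
  obtain ⟨K, S, hS, hlip⟩ := hcomp.exists_lipschitzOnWith
  obtain ⟨ρ, hρ, Hρ⟩ := Metric.eventually_nhds_iff_ball.1
    ((show ∀ᶠ z in 𝓝 z₀, z ∈ S from hS).and (hright.and (hΘc.eventually H)))
  have hPc : Tendsto (H373.Psi f l) (𝓝 x₀) (𝓝 z₀) := hst.hasFDerivAt.continuousAt.tendsto
  refine ⟨K, ?_⟩
  filter_upwards [hleft, hPc.eventually (ball_mem_nhds z₀ hρ)] with x hx hxb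
  set z := H373.Psi f l x with hz
  set z' := Function.update z l 0 with hz'
  have hz'b : z' ∈ ball z₀ ρ := by
    rw [mem_ball, dist_pi_lt_iff hρ]
    intro j
    by_cases hj : j = l
    · subst hj
      rw [hz', Function.update_self, hz₀l, dist_self]; exact hρ
    · rw [hz', Function.update_of_ne hj]
      exact (dist_le_pi_dist z z₀ j).trans_lt (mem_ball.1 hxb)
  obtain ⟨h1, -, -⟩ := Hρ z hxb
  obtain ⟨h2, h3, h4⟩ := Hρ z' hz'b
  have h5 : f (Θ z') = 0 := by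
    have := congrFun h3 l
    simpa [H373.Psi, hz'] using this
  have h6 := hlip.dist_le_mul z h1 z' h2
  rw [dist_eq_norm, dist_eq_norm, hx, h4 h5, sub_zero] at h6
  refine h6.trans (mul_le_mul_of_nonneg_left ?_ K.2)
  rw [pi_norm_le_iff_of_nonneg (norm_nonneg _)]
  intro j
  by_cases hj : j = l
  · subst hj
    rw [Pi.sub_apply, hz', Function.update_self, sub_zero, hz]
    simp [H373.Psi]
  · rw [Pi.sub_apply, hz', Function.update_of_ne hj, sub_self, norm_zero]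
    exact norm_nonneg _

theorem ode_zero {φ : ℂ → ℂ} (hφ : AnalyticAt ℂ φ 0) (h0 : φ 0 = 0) {C : ℝ}
    (h : ∀ᶠ t in 𝓝 (0 : ℂ), ‖deriv φ t‖ ≤ C * ‖φ t‖) : ∀ᶠ t in 𝓝 (0 : ℂ), φ t = 0 := by
  by_contra hcon
  have h1 : analyticOrderAt φ 0 ≠ ⊤ := fun h2 => hcon (analyticOrderAt_eq_top.1 h2)
  obtain ⟨j, hj⟩ := ENat.ne_top_iff_exists.1 h1
  obtain ⟨g, hg, hg0, H⟩ := (hφ.analyticOrderAt_eq_natCast (n := j)).1 hj.symm
  have hj0 : j ≠ 0 := by
    rintro rfl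
    have := H.self_of_nhds
    rw [h0] at this
    simp only [pow_zero, one_smul] at this
    exact hg0 this.symm
  obtain ⟨i, rfl⟩ := Nat.exists_eq_succ_of_ne_zero hj0
  have hd : ∀ᶠ t in 𝓝 (0 : ℂ), deriv φ t = t ^ i * (((i : ℂ) + 1) * g t + t * deriv g t) := by
    filter_upwards [H.eventually_nhds, hg.eventually_analyticAt] with t ht hgt
    have h2 : φ =ᶠ[𝓝 t] fun t => t ^ (i + 1) * g t := by
      filter_upwards [ht] with w hw
      rw [hw, sub_zero, smul_eq_mul]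
    have h3 : HasDerivAt (fun t : ℂ => t ^ (i + 1) * g t)
        ((((i + 1 : ℕ) : ℂ) * t ^ i) * g t + t ^ (i + 1) * deriv g t) t :=
      (hasDerivAt_pow (i + 1) t).mul hgt.differentiableAt.hasDerivAt
    rw [h2.deriv_eq, h3.deriv]
    push_cast
    ring
  have h2 : ∀ᶠ t in 𝓝[≠] (0 : ℂ), ‖((i : ℂ) + 1) * g t + t * deriv g t‖ ≤ C * ‖t‖ * ‖g t‖ := by
    filter_upwards [nhdsWithin_le_nhds h, nhdsWithin_le_nhds hd, nhdsWithin_le_nhds H,
      self_mem_nhdsWithin] with t ht hdt hHt ht0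
    have ht0' : 0 < ‖t‖ := norm_pos_iff.2 ht0
    rw [hdt, hHt, sub_zero, smul_eq_mul, norm_mul, norm_mul, norm_pow, norm_pow, pow_succ] at ht
    have h3 : ‖t‖ ^ i * ‖((i : ℂ) + 1) * g t + t * deriv g t‖ ≤ ‖t‖ ^ i * (C * ‖t‖ * ‖g t‖) := by
      calc _ ≤ _ := ht
        _ = _ := by ring
    exact le_of_mul_le_mul_left h3 (pow_pos ht0' i)
  have hdc : ContinuousAt (deriv g) 0 := hg.deriv.continuousAt
  have h3 : Tendsto (fun t : ℂ => ‖((i : ℂ) + 1) * g t + t * deriv g t‖) (𝓝[≠] 0)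
      (𝓝 ‖((i : ℂ) + 1) * g 0 + 0 * deriv g 0‖) := by
    have h4 : ContinuousAt (fun t : ℂ => ‖((i : ℂ) + 1) * g t + t * deriv g t‖) 0 :=
      ((continuousAt_const.mul hg.continuousAt).add (continuousAt_id.mul hdc)).norm
    exact h4.tendsto.mono_left nhdsWithin_le_nhds
  have h4 : Tendsto (fun t : ℂ => C * ‖t‖ * ‖g t‖) (𝓝[≠] 0) (𝓝 0) := by
    have h5 : ContinuousAt (fun t : ℂ => C * ‖t‖ * ‖g t‖) 0 :=
      (continuousAt_const.mul continuousAt_id.norm).mul hg.continuousAt.norm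
    have h6 := h5.tendsto
    simp only [norm_zero, mul_zero, zero_mul] at h6
    exact h6.mono_left nhdsWithin_le_nhds
  have h5 := le_of_tendsto_of_tendsto h3 h4 h2
  rw [zero_mul, add_zero, norm_le_zero_iff] at h5
  have h6 : ((i : ℂ) + 1) ≠ 0 := by exact_mod_cast Nat.succ_ne_zero i
  exact hg0 ((mul_eq_zero.1 h5).resolve_left h6)

/-- the vertical line -/
def vl (x : Fin 3 → ℂ) (t : ℂ) : Fin 3 → ℂ := x + t • Pi.single 2 1

theorem vertical_zero {f : (Fin 3 → ℂ) → ℂ} {r : ℝ} (hf : DifferentiableOn ℂ f (ball 0 r))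
    {x₀ : Fin 3 → ℂ} (hx₀ : x₀ ∈ ball (0 : Fin 3 → ℂ) r) (f0 : f x₀ = 0)
    (hl : ∃ l, pd l f x₀ ≠ 0) (H : ∀ᶠ x in 𝓝 x₀, f x = 0 → pd 2 f x = 0) :
    ∀ t : ℂ, vl x₀ t ∈ ball (0 : Fin 3 → ℂ) r → f (vl x₀ t) = 0 := by
  have hfa : AnalyticOnNhd ℂ f (ball 0 r) := fun x hx =>
    Vale.Agent.P097.Hol.analyticAt_of_differentiableOn isOpen_ball hf hx
  obtain ⟨l, hl⟩ := hl
  have hpda : AnalyticAt ℂ (pd 2 f) x₀ := by
    have h1 : AnalyticAt ℂ (fderiv ℂ f) x₀ := (hfa x₀ hx₀).fderiv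
    exact ((ContinuousLinearMap.apply ℂ ℂ (Pi.single 2 1 : Fin 3 → ℂ)).analyticAt _).comp h1
  obtain ⟨C, hC⟩ := le_of_zero (hfa x₀ hx₀) f0 hpda hl H
  have hvl0 : vl x₀ 0 = x₀ := by simp [vl]
  have hvla : ∀ t, AnalyticAt ℂ (vl x₀) t := fun t =>
    analyticAt_const.add (analyticAt_id.smul analyticAt_const)
  have hvld : ∀ t, HasDerivAt (vl x₀) (Pi.single 2 1) t := by
    intro t
    have h1 : HasDerivAt (fun t : ℂ => t • (Pi.single 2 1 : Fin 3 → ℂ)) (Pi.single 2 1) t := by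
      simpa using (hasDerivAt_id t).smul_const (Pi.single 2 1 : Fin 3 → ℂ)
    exact h1.const_add x₀
  set φ : ℂ → ℂ := fun t => f (vl x₀ t) with hφ
  have hφa : AnalyticOnNhd ℂ φ (vl x₀ ⁻¹' ball (0 : Fin 3 → ℂ) r) := by
    intro t ht
    exact AnalyticAt.comp (f := vl x₀) (hfa _ ht) (hvla t)
  have hmem0 : (0 : ℂ) ∈ vl x₀ ⁻¹' ball (0 : Fin 3 → ℂ) r := by
    rw [mem_preimage, hvl0]; exact hx₀
  have hcont : Tendsto (vl x₀) (𝓝 0) (𝓝 x₀) := by
    have := (hvla 0).continuousAt.tendsto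
    rwa [hvl0] at this
  have h0 : ∀ᶠ t in 𝓝 (0 : ℂ), φ t = 0 := by
    refine ode_zero (hφa 0 hmem0) (by rw [hφ]; simp only [hvl0]; exact f0) (C := C) ?_
    filter_upwards [hcont.eventually hC, hcont.eventually (isOpen_ball.mem_nhds hx₀)] with t ht htb
    have h1 : HasDerivAt φ (fderiv ℂ f (vl x₀ t) (Pi.single 2 1)) t :=
      ((hfa _ htb).differentiableAt.hasFDerivAt).comp_hasDerivAt t (hvld t)
    rw [h1.deriv]
    exact ht
  have hconv : Convex ℝ (vl x₀ ⁻¹' ball (0 : Fin 3 → ℂ) r) := by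
    intro a ha b hb u v hu hv huv
    have h1 : vl x₀ (u • a + v • b) = u • vl x₀ a + v • vl x₀ b := by
      have h2 : (u : ℂ) + (v : ℂ) = 1 := by exact_mod_cast huv
      funext j
      simp only [vl, Pi.add_apply, Pi.smul_apply, smul_eq_mul, Complex.real_smul]
      linear_combination (-x₀ j) * h2
    rw [mem_preimage, h1]
    exact convex_ball (0 : Fin 3 → ℂ) r ha hb hu hv huv
  have h2 := hφa.eqOn_zero_of_preconnected_of_eventuallyEq_zero hconv.isPreconnected hmem0 h0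
  intro t ht
  exact h2 ht

theorem not_vertical {f : (Fin 3 → ℂ) → ℂ} {r : ℝ} (hf : DifferentiableOn ℂ f (ball 0 r))
    (hr : 0 < r) (hz : ∃ᶠ z in 𝓝 (0 : ℂ), f ![0, 0, z] ≠ 0)
    (H : ∀ δ > 0, ∃ x₀ ∈ ball (0 : Fin 3 → ℂ) δ, x₀ ∈ ball (0 : Fin 3 → ℂ) r ∧ f x₀ = 0 ∧
      (∃ l, pd l f x₀ ≠ 0) ∧ ∀ᶠ x in 𝓝 x₀, f x = 0 → pd 2 f x = 0) : False := by
  choose x hx hxr hfx hlx hpx using fun k : ℕ => H (1 / ((k : ℝ) + 1)) (by positivity)
  have hlim : Tendsto x atTop (𝓝 0) := by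
    rw [tendsto_zero_iff_norm_tendsto_zero]
    refine squeeze_zero (fun k => norm_nonneg _) (fun k => ?_)
      (tendsto_one_div_add_atTop_nhds_zero_nat (𝕜 := ℝ))
    exact (mem_ball_zero_iff.1 (hx k)).le
  apply hz
  filter_upwards [ball_mem_nhds (0 : ℂ) hr] with z hzr
  rw [not_not]
  have h1 : (![0, 0, z] : Fin 3 → ℂ) = vl 0 z := by
    funext j
    fin_cases j <;> simp [vl]
  have hmem : (![0, 0, z] : Fin 3 → ℂ) ∈ ball (0 : Fin 3 → ℂ) r := by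
    rw [mem_ball_zero_iff, pi_norm_lt_iff hr]
    intro j
    have hzr' : ‖z‖ < r := mem_ball_zero_iff.1 hzr
    fin_cases j
    · simpa using hr
    · simpa using hr
    · simpa using hzr'
  have hlim2 : Tendsto (fun k => vl (x k) z) atTop (𝓝 (![0, 0, z] : Fin 3 → ℂ)) := by
    rw [h1]
    exact hlim.add tendsto_const_nhds
  have hev : ∀ᶠ k in atTop, f (vl (x k) z) = 0 := by
    filter_upwards [hlim2.eventually (isOpen_ball.mem_nhds hmem)] with k hk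
    exact vertical_zero hf (hxr k) (hfx k) (hlx k) (hpx k) z hk
  have hlim3 : Tendsto (fun k => f (vl (x k) z)) atTop (𝓝 (f ![0, 0, z])) :=
    ((hf.differentiableAt (isOpen_ball.mem_nhds hmem)).continuousAt.tendsto).comp hlim2
  exact tendsto_nhds_unique (hlim3.congr' hev) tendsto_const_nhds

end Vale.Agent.P298.H714
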